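import Crest.Agent.N233.Ou.R2a
import Crest.Agent.N233.Rg.Hs
import Crest.Agent.N233.Dv.Pt

/-!
# Row 233 (helper95): hyperplanes are one-ended; their stabilisers have finitely many images
-/

set_option autoImplicit false

noncomputable section

namespace Crest.Agent.N233.Ou

open N255.Ra N255.Fa N233.Hyp N233.Rg Relation Set
open scoped Pointwise

variable {A P : Type} {Γ : SimpleGraph A} {st : P → A → P → Prop}

variable (Γ st) in
/-- labels at `x` in the link of `a` and outside `σ` -/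
def Up (x : P) (a : A) (σ : Set A) (c : A) : Prop := (∃ z, st x c z) ∧ Γ.Adj a c ∧ c ∉ σ

variable (Γ st) in
/-- the link of an edge minus a simplex is non-empty and connected -/
structure Lk1 : Prop where
  ne : ∀ x a y, st x a y → ∀ σ : Set A, Γ.IsClique σ → ∃ c, Up Γ st x a σ c
  conn : ∀ x a y, st x a y → ∀ σ : Set A, Γ.IsClique σ → ∀ c c', Up Γ st x a σ c → Up Γ st x a σ c' →
    ReflTransGen (fun u v => Γ.Adj u v ∧ Up Γ st x a σ v) c c'

variable {φ : P → W Γ} {x y z z' : P} {a c : A}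

section lab
variable (H : Lab Γ st φ) (e : st x a y)
include H e

theorem bd_st (hz : z ∈ Rg.bd st (Hs φ x y)) : ∃ w, st z a w ∧ hp φ z a = hp φ x a := by
  obtain ⟨hz, b, w, e', hw⟩ := hz
  rw [mem_Hs H e] at hz hw
  have r : hp φ x a = hp φ z b := by_contra fun n => hw ((sd_st H e' n).trans hz)
  obtain rfl : a = b := Dv.eq_of_conj (Γ := Γ) (u := (φ x)⁻¹ * φ z) (by
    have : φ x * gen Γ a * (φ x)⁻¹ = φ z * gen Γ b * (φ z)⁻¹ := r
    calc _ = (φ z)⁻¹ * (φ x * gen Γ a * (φ x)⁻¹) * φ z := by group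
      _ = _ := by rw [this]; group)
  exact ⟨w, e', r.symm⟩

theorem base_mem : x ∈ Rg.bd st (Hs φ x y) := ⟨self_mem H e, a, y, e, not_mem H e⟩

theorem bd_move (hz : z ∈ Rg.bd st (Hs φ x y)) (s : st z c z') (j : Γ.Adj a c) :
    z' ∈ Rg.bd st (Hs φ x y) := by
  obtain ⟨w, e', r⟩ := bd_st H e hz
  obtain ⟨u, u1, u2⟩ := H.dia _ _ _ _ _ j e' s
  have hz := (mem_Hs H e).1 hz.1
  have n : hp φ x a ≠ hp φ z c := fun h => j.ne (hw_inj (r.trans h))
  have h1 : sd φ (hp φ x a) z' = sd φ (hp φ x a) x := (sd_st H s n).trans hz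
  refine ⟨(mem_Hs H e).2 h1, a, u, u2, fun hu => ?_⟩
  have := sd_st_ne H u2
  rw [hp_adj H s j.symm, r] at this
  exact this (h1.trans ((mem_Hs H e).1 hu).symm)

theorem bd_adj (hz : z ∈ Rg.bd st (Hs φ x y)) (hz' : z' ∈ Rg.bd st (Hs φ x y)) (s : st z c z') :
    Γ.Adj a c := by
  obtain ⟨w, e1, r1⟩ := bd_st H e hz
  obtain ⟨w', e2, r2⟩ := bd_st H e hz'
  refine adj_of_comm (fun h => ?_) ?_
  · subst h
    have := sd_st_ne H s
    rw [r1] at this
    exact this (((mem_Hs H e).1 hz.1).trans ((mem_Hs H e).1 hz'.1).symm)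
  · have : φ z' * gen Γ a * (φ z')⁻¹ = φ z * gen Γ a * (φ z)⁻¹ := r2.trans r1.symm
    rw [H.map _ _ _ s] at this
    have h2 : gen Γ c * gen Γ a * (gen Γ c)⁻¹ = gen Γ a := by
      calc _ = (φ z)⁻¹ * (φ z * gen Γ c * gen Γ a * (φ z * gen Γ c)⁻¹) * φ z := by group
        _ = _ := by rw [this]; group
    rw [mul_inv_eq_iff_eq_mul] at h2
    exact h2.symm

theorem bd_desc (hz : z ∈ Rg.bd st (Hs φ x y)) (hc : c ∈ In ((φ x)⁻¹ * φ z)) : Γ.Adj a c := by
  obtain ⟨w, e1, r1⟩ := bd_st H e hz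
  have h1 := (mem_Hs H e).1 hz.1
  have h2 : sd φ (hp φ z c) z ≠ sd φ (hp φ z c) x := sd_ne_iff.2 hc
  have n : a ≠ c := by
    rintro rfl
    exact h2 (r1 ▸ h1)
  refine adj_of_sep (φ := φ) (x := z) (z := y) ?_ ?_ n
  · rw [r1, h1]; exact sd_st_ne H e
  · rwa [sd_st (r := hp φ z c) H e fun h => n (hw_inj (h.trans r1.symm)).symm]

omit e in
theorem lev_dn (s : st z c z') (hc : c ∈ In ((φ x)⁻¹ * φ z)) : dl φ x z' + 1 = dl φ x z := by
  rw [dl, H.map _ _ _ s, ← mul_assoc]; exact len_mem hc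

omit e in
theorem lev_up (s : st z c z') (hc : c ∉ In ((φ x)⁻¹ * φ z)) : dl φ x z' = dl φ x z + 1 := by
  rw [dl, H.map _ _ _ s, ← mul_assoc]; exact len_nmem hc

omit e in
theorem st_of_dl (h : dl φ z z' ≤ 1) : z = z' ∨ ∃ c, st z c z' := by
  rcases Nat.le_one_iff_eq_zero_or_eq_one.1 h with h | h
  · exact .inl (H.eq_of_dl h)
  · obtain ⟨c, w, h1, h2⟩ := H.step (n := 0) h
    obtain rfl := H.eq_of_dl h2
    exact .inr ⟨c, H.symm _ _ _ h1⟩

theorem exists_dn {n : ℕ} (z : Rg.bd st (Hs φ x y)) (h : dl φ x z = n + 1) :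
    ∃ w : Rg.bd st (Hs φ x y), (∃ c, st z c w) ∧ dl φ x w = n := by
  obtain ⟨c, w, h1, h2⟩ := H.step h
  refine ⟨⟨w, bd_move H e z.2 h1 (bd_desc H e z.2 ?_)⟩, ⟨c, h1⟩, h2⟩
  by_contra hc
  have := lev_up H h1 hc
  omega

/-- hyperplanes are simply connected -/
theorem bd_h1 (c : Rg.bd st (Hs φ x y) → Rg.bd st (Hs φ x y) → ℤ)
    (hc : ∀ u v w : Rg.bd st (Hs φ x y), dl φ u v ≤ 1 → dl φ v w ≤ 1 → c u v + c v w = c u w) :
    ∃ ψ : Rg.bd st (Hs φ x y) → ℤ, ∀ u v : Rg.bd st (Hs φ x y), dl φ u v ≤ 1 → c u v = ψ v - ψ u := by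
  have h : ∀ z : Rg.bd st (Hs φ x y), ∃ w : Rg.bd st (Hs φ x y), ∀ n, dl φ x z = n + 1 →
      (∃ c, st z c w) ∧ dl φ x w = n := fun z => by
    rcases hn : dl φ x z with _ | n
    · exact ⟨z, fun n h => by omega⟩
    · obtain ⟨w, hw⟩ := exists_dn H e z hn
      exact ⟨w, fun m h => by obtain rfl : n = m := by omega
                              exact hw⟩
  choose dn hdn using h
  let F : ℕ → Rg.bd st (Hs φ x y) → ℤ := fun n =>
    n.rec (fun _ => 0) fun _ f z => f (dn z) + c (dn z) z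
  have le : ∀ {u v : P} {b : A}, st u b v → dl φ u v ≤ 1 := fun h => (H.dl_st h).le
  have c0 : ∀ u, c u u = 0 := fun u => by
    have := hc u u u (by simp [dl_self]) (by simp [dl_self]); linarith
  have key : ∀ n, ∀ (z w : Rg.bd st (Hs φ x y)) b, st z b w → dl φ x z = n + 1 → dl φ x w = n →
      F (n + 1) z = F n w + c w z := by
    intro n
    induction n using Nat.strong_induction_on with
    | _ n ih =>
    intro z w b s hz hw
    obtain ⟨⟨b', s'⟩, hw'⟩ := hdn z n hz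
    show F n (dn z) + c (dn z) z = _
    by_cases hb : b = b'
    · subst hb
      rw [Subtype.ext (H.det _ _ _ _ s s')]
    have m : ∀ {b : A} {w : P}, st z b w → dl φ x w = n → b ∈ In ((φ x)⁻¹ * φ z) := fun s hw =>
      by_contra fun hc => by have := lev_up H s hc; omega
    have j : Γ.Adj b b' := In_clique _ (m s hw) (m s' hw') hb
    obtain ⟨u, u1, u2⟩ := H.dia _ _ _ _ _ j s s'
    have hu := lev_dn (x := x) H u1 (by
      rw [H.map _ _ _ s, ← mul_assoc, mem_In_mul_adj j]; exact m s' hw')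
    let u' : Rg.bd st (Hs φ x y) := ⟨u, bd_move H e w.2 u1 (bd_adj H e z.2 (dn z).2 s')⟩
    obtain ⟨k, rfl⟩ : ∃ k, n = k + 1 := ⟨dl φ x u, by omega⟩
    have hk : dl φ x u' = k := by show dl φ x u = k; omega
    rw [ih k k.lt_succ_self w u' _ u1 hw hk, ih k k.lt_succ_self (dn z) u' _ u2 hw' hk]
    have a1 := hc u' w z (le (H.symm _ _ _ u1)) (le (H.symm _ _ _ s))
    have a2 := hc u' (dn z) z (le (H.symm _ _ _ u2)) (le (H.symm _ _ _ s'))
    linarith
  refine ⟨fun z => F (dl φ x z) z, fun u v h => ?_⟩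
  rcases st_of_dl H h with h | ⟨b, s⟩
  · rw [Subtype.ext h, c0, sub_self]
  by_cases hb : b ∈ In ((φ x)⁻¹ * φ u)
  · have h1 := lev_dn H s hb
    have h2 := key _ u v b s h1.symm rfl
    have h3 := hc u v u (le s) (le (H.symm _ _ _ s))
    simp only [← h1, h2]
    linarith [c0 u]
  · have h1 := lev_up H s hb
    have h2 := key _ v u b (H.symm _ _ _ s) h1 rfl
    simp only [h1, h2]
    ring

theorem bd_conn {r : Rg.bd st (Hs φ x y) → Rg.bd st (Hs φ x y) → Prop}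
    (hr : ∀ u v : Rg.bd st (Hs φ x y), dl φ u v ≤ 1 → r u v) (u v : Rg.bd st (Hs φ x y)) :
    EqvGen r u v := by
  have key : ∀ n, ∀ u : Rg.bd st (Hs φ x y), dl φ x u = n → EqvGen r u ⟨x, base_mem H e⟩ := by
    intro n
    induction n with
    | zero => intro u h; rw [show u = ⟨x, base_mem H e⟩ from Subtype.ext (H.eq_of_dl h).symm]; exact .refl _
    | succ n ih =>
      intro u h
      obtain ⟨w, ⟨c, s⟩, hw⟩ := exists_dn H e u h
      exact .trans _ _ _ (.rel _ _ (hr _ _ (H.dl_st s).le)) (ih w hw)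
  exact .trans _ _ _ (key _ u rfl) (.symm _ _ (key _ v rfl))

variable (L : Lk1 Γ st)
include L

theorem exists_up (z : Rg.bd st (Hs φ x y)) :
    ∃ w : Rg.bd st (Hs φ x y), (∃ c, st z c w) ∧ dl φ x w = dl φ x z + 1 := by
  obtain ⟨w, s, -⟩ := bd_st H e z.2
  obtain ⟨c, ⟨v, h1⟩, h2, h3⟩ := L.ne _ _ _ s _ (In_clique ((φ x)⁻¹ * φ z))
  exact ⟨⟨v, bd_move H e z.2 h1 h2⟩, ⟨c, h1⟩, lev_up H h1 h3⟩

theorem exists_lev (n : ℕ) : ∃ z : Rg.bd st (Hs φ x y), dl φ x z = n := by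
  induction n with
  | zero => exact ⟨⟨x, base_mem H e⟩, dl_self x⟩
  | succ n ih =>
    obtain ⟨z, hz⟩ := ih
    obtain ⟨w, -, hw⟩ := exists_up H e L z
    exact ⟨w, by rw [hw, hz]⟩

/-- hyperplanes are one-ended -/
theorem bd_end (n : ℕ) : ∀ ψ : Rg.bd st (Hs φ x y) → ℤ,
    (∀ u v : Rg.bd st (Hs φ x y), dl φ u v ≤ 1 → n ≤ dl φ x u → n ≤ dl φ x v → ψ u = ψ v) →
      ∀ u v : Rg.bd st (Hs φ x y), n ≤ dl φ x u → n ≤ dl φ x v → ψ u = ψ v := by
  induction n with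
  | zero =>
    intro ψ h u v _ _
    induction bd_conn H e (r := fun u v => ψ u = ψ v) (fun u v k => h u v k (by simp) (by simp)) u v with
    | rel _ _ h => exact h
    | refl => rfl
    | symm _ _ _ ih => exact (ih (by simp) (by simp)).symm
    | trans _ _ _ _ _ i1 i2 => exact (i1 (by simp) (by simp)).trans (i2 (by simp) (by simp))
  | succ n ih =>
    intro ψ h
    choose up hup hup' using exists_up H e L
    have le : ∀ {u v : P} {b : A}, st u b v → dl φ u v ≤ 1 := fun h => (H.dl_st h).le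
    have key : ∀ (z w w' : Rg.bd st (Hs φ x y)) b b', dl φ x z = n → st z b w → st z b' w' →
        dl φ x w = n + 1 → dl φ x w' = n + 1 → ψ w = ψ w' := by
      intro z w w' b b' hz s s' hw hw'
      obtain ⟨z1, s1, -⟩ := bd_st H e z.2
      have m : ∀ {b : A} {w : Rg.bd st (Hs φ x y)}, st z b w → dl φ x w = n + 1 →
          Up Γ st z a (In ((φ x)⁻¹ * φ z)) b := fun {b w} s hw =>
        ⟨⟨_, s⟩, bd_adj H e z.2 w.2 s, fun hc => by have := lev_dn H s hc; omega⟩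
      have p := L.conn _ _ _ s1 _ (In_clique _) _ _ (m s hw) (m s' hw')
      clear m
      induction p generalizing w' with
      | refl => rw [Subtype.ext (H.det _ _ _ _ s s')]
      | @tail b1 b2 p q ih' =>
        have hb1 : Up Γ st z a (In ((φ x)⁻¹ * φ z)) b1 := by
          rcases p.cases_tail with h | ⟨_, -, h⟩
          · subst h
            exact ⟨⟨_, s⟩, bd_adj H e z.2 w.2 s, fun hc => by have := lev_dn H s hc; omega⟩
          · exact h.2
        obtain ⟨⟨v, s2⟩, j, nb⟩ := hb1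
        let v' : Rg.bd st (Hs φ x y) := ⟨v, bd_move H e z.2 s2 j⟩
        have hv : dl φ x v' = n + 1 := by rw [← hz]; exact lev_up H s2 nb
        rw [ih' v' s2 hv]
        obtain ⟨u, u1, u2⟩ := H.dia _ _ _ _ _ q.1 s2 s'
        let u' : Rg.bd st (Hs φ x y) := ⟨u, bd_move H e v'.2 u1 q.2.2.1⟩
        have hu : dl φ x u' = dl φ x v' + 1 := lev_up (x := x) H u1 (by
          rw [H.map _ _ _ s2, ← mul_assoc, mem_In_mul_adj q.1]; exact q.2.2.2)
        exact (h v' u' (le u1) hv.ge (by omega)).trans (h w' u' (le u2) hw'.ge (by omega)).symm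
    have := ih (fun z => if dl φ x z = n then ψ (up z) else ψ z) (by
      intro u v k hu hv
      rcases st_of_dl H k with k | ⟨b, s⟩
      · rw [Subtype.ext k]
      have lv : dl φ x v + 1 = dl φ x u ∨ dl φ x v = dl φ x u + 1 :=
        (em _).imp (lev_dn H s) (lev_up H s)
      by_cases h1 : dl φ x u = n
      · obtain ⟨b', s'⟩ := hup u
        rw [if_pos h1, if_neg (by omega)]
        exact key u _ _ _ _ h1 s' s (by rw [hup', h1]) (by omega)
      by_cases h2 : dl φ x v = n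
      · obtain ⟨b', s'⟩ := hup v
        rw [if_neg h1, if_pos h2]
        exact key v _ _ _ _ h2 (H.symm _ _ _ s) s' (by omega) (by rw [hup', h2])
      rw [if_neg h1, if_neg h2]
      exact h u v (le s) (by omega) (by omega))
    intro u v hu hv
    have := this u v (by omega) (by omega)
    rwa [if_neg (by omega), if_neg (by omega)] at this

end lab

section act
variable {G : Type*} [Group G] [MulAction G P]

theorem dl_smul (H : Lab Γ st φ) (hi : ∀ (g : G) x a y, st x a y → ∃ b, st (g • x) b (g • y))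
    (g : G) (x y : P) : dl φ (g • x) (g • y) = dl φ x y := by
  refine le_antisymm (H.dl_map_le (hi g) _ _ _ rfl) ?_
  simpa using H.dl_map_le (hi g⁻¹) _ (g • x) (g • y) rfl

theorem smul_Hs (H : Lab Γ st φ) (hi : ∀ (g : G) x a y, st x a y → ∃ b, st (g • x) b (g • y))
    (g : G) (x y : P) : g • Hs φ x y = Hs φ (g • x) (g • y) := by
  ext z
  rw [mem_smul_set_iff_inv_smul_mem]
  show dl φ _ _ < dl φ _ _ ↔ dl φ _ _ < dl φ _ _
  rw [← dl_smul H hi g _ x, ← dl_smul H hi g _ y, smul_inv_smul]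

/-- the hyperplane as a set with an action of its stabiliser -/
def bdS (hi : ∀ (g : G) x a y, st x a y → ∃ b, st (g • x) b (g • y)) (h : Set P) :
    SubMulAction (MulAction.stabilizer G h) P where
  carrier := Rg.bd st h
  smul_mem' := by
    rintro ⟨g, hg⟩ z ⟨h1, b, w, s, h2⟩
    have hg : g • h = h := hg
    obtain ⟨b', s'⟩ := hi g _ _ _ s
    refine ⟨?_, b', g • w, s', ?_⟩
    · show g • z ∈ h
      rw [← hg]; exact smul_mem_smul_set h1
    · rw [← hg]; exact fun k => h2 (smul_mem_smul_set_iff.1 k)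

variable (H : Lab Γ st φ) (hi : ∀ (g : G) x a y, st x a y → ∃ b, st (g • x) b (g • y))
  (hf : ∀ (g : G) (x : P), g • x = x → g = 1) (hl : ∀ x, {y | ∃ a, st x a y}.Finite)
  {B : Set P} (hB : B.Finite) (hD : ∀ x, ∃ g : G, g • x ∈ B)

include H hl in
theorem ball_fin (x : P) (R : ℕ) : {y | dl φ x y ≤ R}.Finite :=
  ball_finite H.isGM (fun u => ((hl u).insert u).subset fun v hv =>
    (st_of_dl H hv).imp Eq.symm id) x R

include H hl hB hD in
theorem bd_cof (e : st x a y) : ∃ B' : Set (bdS hi (Hs φ x y)), B'.Finite ∧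
    ∀ z : bdS hi (Hs φ x y), ∃ j : MulAction.stabilizer G (Hs φ x y), j • z ∈ B' := by
  let T : Set (P × P) := ⋃ u ∈ B, (fun v => (u, v)) '' {v | dl φ u v ≤ 1}
  have hT : T.Finite := hB.biUnion fun u _ => (ball_fin H hl u 1).image _
  have h : ∀ p : P × P, ∃ z : bdS hi (Hs φ x y), (∃ (z' : bdS hi (Hs φ x y)) (w : P) (g : G),
      Hs φ x y = Hs φ z' w ∧ p = (g • z'.1, g • w)) →
        ∃ (w : P) (g : G), Hs φ x y = Hs φ z w ∧ p = (g • z.1, g • w) := fun p => by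
    by_cases k : ∃ (z' : bdS hi (Hs φ x y)) (w : P) (g : G),
      Hs φ x y = Hs φ z' w ∧ p = (g • z'.1, g • w)
    · obtain ⟨z, k⟩ := k
      exact ⟨z, fun _ => k⟩
    · exact ⟨⟨x, base_mem H e⟩, fun k' => (k k').elim⟩
  choose rp hrp using h
  refine ⟨rp '' T, hT.image _, fun z => ?_⟩
  obtain ⟨h1, b, w, s, h2⟩ := z.2
  obtain ⟨g, hg⟩ := hD z
  have k := IsH.eq H ⟨x, a, y, e, rfl⟩ s h1 h2
  obtain ⟨w', g', k', p⟩ := hrp (g • z.1, g • w) ⟨z, w, g, k, rfl⟩
  have p1 : (g'⁻¹ * g) • z.1 = rp (g • z.1, g • w) := by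
    rw [mul_smul, inv_smul_eq_iff]; exact congrArg Prod.fst p
  have p2 : (g'⁻¹ * g) • w = w' := by rw [mul_smul, inv_smul_eq_iff]; exact congrArg Prod.snd p
  refine ⟨⟨g'⁻¹ * g, ?_⟩, (g • z.1, g • w), mem_biUnion hg ⟨g • w, ?_, rfl⟩, Subtype.ext p1.symm⟩
  · rw [MulAction.mem_stabilizer_iff]
    conv_lhs => rw [k, smul_Hs H hi, p1, p2, ← k']
  · show dl φ _ _ ≤ 1
    rw [dl_smul H hi, H.dl_st s]

include H hf hl hB hD in
/-- the stabiliser of a half space acts on a one-ended simply connected complex -/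
theorem oe_bd (L : Lk1 Γ st) (e : st x a y) :
    OE (MulAction.stabilizer G (Hs φ x y)) (K := bdS hi (Hs φ x y)) (fun u v => dl φ u v ≤ 1)
      fun u v w => dl φ u v ≤ 1 ∧ dl φ v w ≤ 1 := by
  obtain ⟨B', hB', hc⟩ := bd_cof H hi hl hB hD e
  have bf : ∀ (u : P) R, {v : bdS hi (Hs φ x y) | dl φ u v ≤ R}.Finite := fun u R =>
    (ball_fin H hl u R).preimage Subtype.val_injective.injOn
  have sm : ∀ (j : MulAction.stabilizer G (Hs φ x y)) (u v : bdS hi (Hs φ x y)),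
      dl φ (j • u : bdS hi (Hs φ x y)) (j • v : bdS hi (Hs φ x y)) = dl φ u v := fun j u v =>
    dl_smul H hi j.1 u v
  refine ⟨Infinite.of_surjective (fun z => dl φ x z) (exists_lev H e L),
    fun j z h => Subtype.ext (hf j.1 z (congrArg Subtype.val h)), fun j u v h => by rwa [sm],
    fun j u v w h => by rwa [sm, sm], ?_, ?_, bd_conn H e fun _ _ h => h, fun c hc hfin => ?_⟩
  · refine ⟨⋃ u ∈ B', (fun v => (u, v)) '' {v | dl φ u v ≤ 1},
      hB'.biUnion fun u _ => (bf u 1).image _, fun u v h => ?_⟩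
    obtain ⟨j, hj⟩ := hc u
    exact ⟨j, mem_biUnion hj ⟨j • v, by rwa [mem_setOf_eq, sm], rfl⟩⟩
  · refine ⟨⋃ u ∈ B', ⋃ v ∈ {v : bdS hi (Hs φ x y) | dl φ u v ≤ 1},
      (fun w => (u, v, w)) '' {w | dl φ v w ≤ 1},
      hB'.biUnion fun u _ => (bf u 1).biUnion fun v _ => (bf v 1).image _, fun u v w h => ?_⟩
    obtain ⟨j, hj⟩ := hc u
    exact ⟨j, mem_biUnion hj (mem_biUnion (x := j • v) (by rw [mem_setOf_eq, sm]; exact h.1)
      ⟨j • w, by rw [mem_setOf_eq, sm]; exact h.2, rfl⟩)⟩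
  · obtain ⟨ψ, hψ⟩ := bd_h1 H e c fun u v w h h' => hc u v w ⟨h, h'⟩
    obtain ⟨n, hn⟩ := (hfin.image fun p => dl φ x p.1).bddAbove
    have k := bd_end H e L (n + 1) ψ fun u v h hu hv => by
      have : c u v = 0 := by_contra fun k => by
        have : dl φ x u ≤ n := hn ⟨(u, v), ⟨h, k⟩, rfl⟩
        omega
      linarith [hψ u v h]
    obtain ⟨z, hz⟩ := exists_lev H e L (n + 1)
    refine ⟨Finsupp.ofSupportFinite (fun u => ψ u - ψ z) ((bf x n).subset fun u hu => ?_),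
      fun u v h => ?_⟩
    · by_contra hu'
      exact hu (sub_eq_zero.2 (k u z (by simpa using hu') hz.ge))
    · rw [hψ u v h, Finsupp.ofSupportFinite_coe]; ring

variable {V E : Type*} [MulAction G V] [MulAction G E] {src tgt : E → V} {q : V → V → E →₀ ℤ} {m : ℤ}
  {C : ℕ}

include H hi hf hl hB hD in
/-- **R2**, subgroup form -/
theorem r2_sub (L : Lk1 Γ st) (Bi : Bic G src tgt q m C) (e : st x a y) :
    ∃ 𝒜 : Set (Subgroup G), 𝒜.Finite ∧ ∀ ψ : MulAction.stabilizer G (Hs φ x y) →* G,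
      Function.Injective ψ → ∃ J : Subgroup (MulAction.stabilizer G (Hs φ x y)), J.FiniteIndex ∧
        ∃ g : G, (J.map ψ).map (MulAut.conj g).toMonoidHom ∈ 𝒜 :=
  delzant Bi (oe_bd H hi hf hl hB hD L e)

include H hi hf hl hB hD in
/-- **R2**, in the form of `Rg.inner` -/
theorem r2 (L : Lk1 Γ st) (Bi : Bic G src tgt q m C) (x : P) (a : A) (y : P) (e : st x a y) :
    ∃ 𝓕 : Set (Set P), 𝓕.Finite ∧ ∀ α : MulAut G, ∃ Z ∈ 𝓕, ∃ g : G,
      Near φ ((fun j => α j • x) '' (MulAction.stabilizer G (Hs φ x y) : Set G)) (g • Z) ∧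
        Near φ (g • Z) ((fun j => α j • x) '' (MulAction.stabilizer G (Hs φ x y) : Set G)) := by
  obtain ⟨𝒜, h𝒜, h⟩ := r2_sub H hi hf hl hB hD L Bi e
  refine ⟨(fun U : Subgroup G => (fun g => g • x) '' (U : Set G)) '' 𝒜, h𝒜.image _, fun α => ?_⟩
  obtain ⟨J, _, g, hg⟩ := h (α.toMonoidHom.comp (Subgroup.subtype _))
    (α.injective.comp Subtype.val_injective)
  obtain ⟨T, hT, hJ⟩ := exists_reps J
  obtain ⟨R, hR⟩ := (hT.image fun t => dl φ (α t.1 • x) (g⁻¹ • x)).bddAbove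
  refine ⟨_, ⟨_, hg, rfl⟩, g⁻¹, ⟨R, ?_⟩, dl φ (g⁻¹ • x) x, ?_⟩
  · rintro _ ⟨j, hj, rfl⟩
    obtain ⟨u, hu, t, ht, k⟩ := hJ ⟨j, hj⟩
    have k : j = u * t := congrArg Subtype.val k
    refine ⟨α u • g⁻¹ • x, ⟨_, ⟨_, ⟨_, ⟨u, hu, rfl⟩, rfl⟩, rfl⟩, by simp [mul_smul]⟩, ?_⟩
    simp only [k, map_mul, mul_smul, dl_smul H hi]
    exact hR ⟨t, ht, rfl⟩
  · rintro _ ⟨_, ⟨_, ⟨_, ⟨u, hu, rfl⟩, rfl⟩, rfl⟩, rfl⟩
    refine ⟨α u • x, ⟨u, u.2, rfl⟩, le_of_eq ?_⟩
    simp [mul_smul, dl_smul H hi]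

end act

end Crest.Agent.N233.Ou

end
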