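import Crest.Agent.N233.Ou.Bi3

/-!
# Row 233 (helper51): bounded triangle defect of the bicombing
-/

set_option autoImplicit false

noncomputable section

namespace Crest.Agent.N233.Ou

open Classical Finset

variable {ι P : Type*} {σ : ι → P → Bool} {d : ℕ} {a b c : P} {H K L J M H' K' : ι}

namespace WS

variable (W : WS σ d)

theorem lam_card (a b c : P) : #{J ∈ W.Sp a b | Lam σ a b c J} ≤ d * d := by
  let T := {K ∈ W.Sp a b | Lg σ a b c K ∧ ∃ L, Lg σ a b c L ∧ Lt σ a K L}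
  have hT : ∀ K ∈ T, In σ a b K := fun K k => W.mem_Sp.1 (mem_filter.1 k).1
  refine (card_le_card (t := (Mx σ a T).biUnion fun K => {J ∈ W.Sp a b | ¬Lg σ a b c J ∧ Cr σ K J})
    fun J j => ?_).trans ((card_biUnion_le_card_mul _ _ d fun K k => ?_).trans
      (Nat.mul_le_mul_right _ (W.mx_card T hT)))
  · obtain ⟨j1, j2, j3, K, k1, k2, k3⟩ := mem_filter.1 j
    obtain ⟨M, m1, m2⟩ := W.exists_mx hT (mem_filter.2 ⟨W.mem_Sp.2 k1.1, k1, k2⟩ : K ∈ T)
    have n : ¬Lg σ a b c J := fun e => j3 e.2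
    exact mem_biUnion.2 ⟨M, m1, mem_filter.2 ⟨j1, n,
      (mem_filter.1 (mem_filter.1 m1).1).2.1.cr j2 n fun l => (W.le_lt m2 l).ncr k3⟩⟩
  · obtain ⟨-, k1, L, l1, l2⟩ := mem_filter.1 (mem_filter.1 k).1
    refine W.tr_card l2.1 l2.ncr _ fun J j => ?_
    obtain ⟨j1, j2, j3⟩ := mem_filter.1 j
    exact ⟨j3, l1.cr (W.mem_Sp.1 j1) j2 fun l => (W.trans l2 l).ncr j3⟩

theorem exc_card (a b c : P) (J : ι) : #{H ∈ W.Sp a b | Lg σ a b c H ∧ Cr σ H J ∧
    ∃ K, Lg σ a b c K ∧ Cr σ H K ∧ Lt σ a K J} ≤ d * d := by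
  let T := {K ∈ W.Sp a b | Lt σ a K J}
  have hT : ∀ K ∈ T, In σ a b K := fun K k => W.mem_Sp.1 (mem_filter.1 k).1
  refine (card_le_card (t := (Mx σ a T).biUnion fun K => {H ∈ W.Sp a b | Cr σ K H ∧ Cr σ J H})
    fun H h => ?_).trans ((card_biUnion_le_card_mul _ _ d fun K k => ?_).trans
      (Nat.mul_le_mul_right _ (W.mx_card T hT)))
  · obtain ⟨j1, j2, j3, K, k1, k2, k3⟩ := mem_filter.1 h
    obtain ⟨M, m1, m2⟩ := W.exists_mx hT (mem_filter.2 ⟨W.mem_Sp.2 k1.1, k3⟩ : K ∈ T)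
    have l := (mem_filter.1 (mem_filter.1 m1).1).2
    refine mem_biUnion.2 ⟨M, m1, mem_filter.2 ⟨j1, ?_, j3.symm⟩⟩
    rcases tri (hT M (mem_filter.1 m1).1) j2.1 with e | e | e | e
    · exact absurd j3 (e ▸ l.ncr)
    · exact absurd k2.symm (W.le_lt m2 e).ncr
    · exact absurd j3 (W.trans e l).ncr
    · exact e
  · have l := (mem_filter.1 (mem_filter.1 k).1).2
    exact W.tr_card l.1 l.ncr _ fun H h => (mem_filter.1 h).2

theorem na0_card (a b c : P) :
    #{H ∈ W.Sp a b | Lg σ a b c H ∧ ¬A0 σ a b c H} ≤ d + (d * d + d * d) * (d * d) := by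
  let T := {K ∈ W.Sp a b | Lg σ a b c K}
  have hT : ∀ K ∈ T, In σ a b K := fun K k => W.mem_Sp.1 (mem_filter.1 k).1
  refine (card_le_card (t := Mx σ a T ∪ ({J ∈ W.Sp a b | Lam σ a b c J} ∪
    {J ∈ W.Sp a c | Lam σ a c b J}).biUnion fun J => {H ∈ W.Sp a b | Lg σ a b c H ∧ Cr σ H J ∧
      ∃ K, Lg σ a b c K ∧ Cr σ H K ∧ Lt σ a K J}) fun H h => ?_).trans ((card_union_le _ _).trans
      (add_le_add (W.mx_card T hT) ((card_biUnion_le_card_mul _ _ _ fun J _ => W.exc_card a b c J).trans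
        (Nat.mul_le_mul_right _ ((card_union_le _ _).trans
          (add_le_add (W.lam_card a b c) (W.lam_card a c b)))))))
  obtain ⟨h1, h2, h3⟩ := mem_filter.1 h
  by_cases e : ∃ K, Lg σ a b c K ∧ Lt σ a H K
  · obtain ⟨J, K, j1, j2, j3, j4, j5, j6⟩ : Exc σ a b c H := by_contra fun n => h3 ⟨h2, e, n⟩
    refine mem_union_right _ (mem_biUnion.2 ⟨J, ?_, mem_filter.2 ⟨h1, h2, j4, K, j3, j5, j6⟩⟩)
    rcases j1 with j1 | j1
    · exact mem_union_left _ (mem_filter.2 ⟨W.mem_Sp.2 j1, j1, fun k => j2 ⟨j1, k⟩, H, h2, e, j4⟩)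
    · exact mem_union_right _ (mem_filter.2 ⟨W.mem_Sp.2 j1, j1, fun k => j2 ⟨k, j1⟩, H, h2.symm,
        e.imp fun _ k => ⟨k.1.symm, k.2⟩, j4⟩)
  · exact mem_union_left _ (mem_filter.2 ⟨mem_filter.2 ⟨h1, h2⟩,
      fun L l k => e ⟨L, (mem_filter.1 l).2, k⟩⟩)

theorem bad_card (a b : P) (s : ℤ) (hs : s ≠ 0) (T : ι → Prop) :
    #{K ∈ W.Sp a b | T K ∧ ¬Ch6 σ a fun M => T M ∧ s * W.pos a b K < s * W.pos a b M} ≤ 6 * d := by
  rcases eq_empty_or_nonempty
    {K ∈ W.Sp a b | T K ∧ ¬Ch6 σ a fun M => T M ∧ s * W.pos a b K < s * W.pos a b M} with e | e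
  · rw [e]; exact Nat.zero_le _
  obtain ⟨K, k, m⟩ := exists_min_image _ (fun K => s * W.pos a b K) e
  have h1 : #{M ∈ W.Sp a b | T M ∧ s * W.pos a b K < s * W.pos a b M} ≤ 5 * d := not_lt.1 fun l => by
    obtain ⟨f, f1, f2⟩ := W.chain (a := a) (b := b) 5 _ (fun K k => W.mem_Sp.1 (mem_filter.1 k).1) l
    exact (mem_filter.1 k).2.2 ⟨f, fun i j => (mem_filter.1 (f1 i j)).2, f2⟩
  have h2 := W.cnt_le a b (W.pos a b K)
  refine (card_le_card (t := {M ∈ W.Sp a b | T M ∧ s * W.pos a b K < s * W.pos a b M} ∪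
    {M ∈ W.Sp a b | W.pos a b M = W.pos a b K}) fun M l => ?_).trans
      ((card_union_le _ _).trans (by unfold cnt at h2; omega))
  rcases (m M l).lt_or_eq with j | j
  · exact mem_union_left _ (mem_filter.2 ⟨(mem_filter.1 l).1, (mem_filter.1 l).2.1, j⟩)
  · exact mem_union_right _ (mem_filter.2 ⟨(mem_filter.1 l).1, (mul_left_cancel₀ hs j).symm⟩)

omit W in
/-- the bound for the number of ordinary walls close to a special one -/
def Nf (d : ℕ) : ℕ := (d + (d * d + d * d) * (d * d) + d * d) * (d + 6 * d + 6 * d) + d * d * (6 * d) + 6 * d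

theorem far_card (a b c : P) : #{K ∈ W.Sp a b | A0 σ a b c K ∧ ¬W.Far a b c K} ≤ Nf d := by
  let B : ℤ → (ι → Prop) → Finset ι := fun s T =>
    {K ∈ W.Sp a b | T K ∧ ¬Ch6 σ a fun M => T M ∧ s * W.pos a b K < s * W.pos a b M}
  refine (card_le_card (t := ({H ∈ W.Sp a b | Lg σ a b c H ∧ ¬A0 σ a b c H} ∪
    {J ∈ W.Sp a b | Lam σ a b c J}).biUnion (fun z => {M ∈ W.Sp a b | W.pos a b M = W.pos a b z} ∪
      B (-1) (fun M => A0 σ a b c M ∧ W.pos a b z < W.pos a b M) ∪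
      B 1 (fun M => A0 σ a b c M ∧ W.pos a b M < W.pos a b z)) ∪
    ({J ∈ W.Sp a b | Lam σ a b c J}.biUnion fun J => B 1 fun M => A0 σ a b c M ∧ Lt σ a M J) ∪
    B 1 (A0 σ a b c)) fun K k => ?_).trans ((card_union_le _ _).trans (add_le_add
      ((card_union_le _ _).trans (add_le_add
        ((card_biUnion_le_card_mul _ _ _ fun z _ => (card_union_le _ _).trans (add_le_add
          ((card_union_le _ _).trans (add_le_add (W.cnt_le a b _) (W.bad_card a b _ (by omega) _)))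
          (W.bad_card a b _ one_ne_zero _))).trans (Nat.mul_le_mul_right _
            ((card_union_le _ _).trans (add_le_add (W.na0_card a b c) (W.lam_card a b c)))))
        ((card_biUnion_le_card_mul _ _ _ fun z _ => W.bad_card a b _ one_ne_zero _).trans
          (Nat.mul_le_mul_right _ (W.lam_card a b c))))) (W.bad_card a b _ one_ne_zero _)))
  obtain ⟨k1, k2, k3⟩ := mem_filter.1 k
  by_contra n
  simp only [mem_union, mem_biUnion, not_or, not_exists, not_and, B, mem_filter, k1, k2, true_and,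
    not_not, one_mul, neg_mul, neg_lt_neg_iff] at n
  obtain ⟨⟨n1, n2⟩, n3⟩ := n
  have hz : ∀ z, Z σ a b c z → (z ∈ W.Sp a b ∧ Lg σ a b c z ∧ ¬A0 σ a b c z) ∨
      (z ∈ W.Sp a b ∧ Lam σ a b c z) := fun z h =>
    h.imp (fun h => ⟨W.mem_Sp.2 h.1.1, h⟩) fun h => ⟨W.mem_Sp.2 h.1, h⟩
  exact k3 ⟨fun z h e => (n1 z (hz z h)).1.1 e.symm,
    fun z h l => ((n1 z (hz z h)).1.2 l).mono fun M m => ⟨m.1.1, m.1.2, m.2⟩,
    fun z h l => ((n1 z (hz z h)).2 l).mono fun M m => ⟨m.1.1, m.2, m.1.2⟩,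
    fun J h l => (n2 J ⟨W.mem_Sp.2 h.1, h⟩ l).mono fun M m => ⟨m.1.1, m.2, m.1.2⟩, n3⟩

/-- the defect along one leg -/
def leg (a b c : P) : W.E →₀ ℤ :=
  ∑ K ∈ W.Sp a b ∩ W.Sp a c, (W.tm a b (W.pos a b K) - W.tm a c (W.pos a c K))

omit W in
/-- the bound for the support of the defect along one leg -/
def Nl (d : ℕ) : ℕ := (d + (d * d + d * d) * (d * d) + Nf d + Nf d) * (2 + 2)

theorem leg_card (a b c : P) : #(W.leg a b c).support ≤ Nl d := by
  let B := {H ∈ W.Sp a b | Lg σ a b c H ∧ ¬A0 σ a b c H} ∪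
    {K ∈ W.Sp a b | A0 σ a b c K ∧ ¬W.Far a b c K} ∪ {K ∈ W.Sp a c | A0 σ a c b K ∧ ¬W.Far a c b K}
  have hB : B ⊆ W.Sp a b ∩ W.Sp a c := fun K k => by
    simp only [B, mem_union, mem_filter, mem_inter, mem_Sp] at k ⊢
    rcases k with (k | k) | k
    exacts [k.2.1, k.2.1.1, k.2.1.1.symm]
  rw [leg, ← sum_subset hB fun K k n => ?_]
  · refine (card_le_card Finsupp.support_finsetSum).trans ((card_biUnion_le_card_mul _ _ (2 + 2)
      fun K _ => ?_).trans (Nat.mul_le_mul_right _ ((card_union_le _ _).trans (add_le_add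
        ((card_union_le _ _).trans (add_le_add (W.na0_card a b c) (W.far_card a b c)))
        (W.far_card a c b)))))
    exact (card_le_card Finsupp.support_sub).trans ((card_union_le _ _).trans
      (add_le_add (W.tm_supp _ _ _) (W.tm_supp _ _ _)))
  · simp only [B, mem_union, mem_filter, mem_inter, mem_Sp, not_or, not_and, not_not] at k n
    have e := n.1.1 k.1 k
    rw [tm_eq e (n.1.2 k.1 e) (n.2 k.2 e.symm), sub_self]

theorem sum_split (f : ι → W.E →₀ ℤ) (a b c : P) :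
    ∑ K ∈ W.Sp a b, f K = ∑ K ∈ W.Sp a b ∩ W.Sp a c, f K + ∑ K ∈ W.Sp b c ∩ W.Sp b a, f K := by
  rw [← sum_inter_add_sum_sdiff (W.Sp a b) (W.Sp a c)]
  congr 2
  ext K
  simp only [mem_sdiff, mem_inter, mem_Sp, In]
  generalize σ K a = x, σ K b = y, σ K c = z
  revert x y z
  decide

theorem defect (a b c : P) : W.q a b + W.q b c - W.q a c = W.leg a b c + W.leg b c a + W.leg c a b := by
  have r : ∀ (a b : P) (S : Finset ι), S ⊆ W.Sp a b →
      ∑ K ∈ S, W.tm b a (W.pos b a K) = -∑ K ∈ S, W.tm a b (W.pos a b K) := fun a b S h => by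
    rw [← sum_neg_distrib]
    exact sum_congr rfl fun K k => by rw [W.pos_rev (W.mem_Sp.1 (h k)), tm_rev]
  have e : W.q a c = -W.q c a := r c a _ (W.Sp_comm a c).subset |>.trans (by rw [q, W.Sp_comm c a])
  rw [e, q, q, q, W.sum_split _ a b c, W.sum_split _ b c a, W.sum_split _ c a b]
  simp only [leg, sum_sub_distrib]
  rw [r c a (W.Sp a b ∩ W.Sp a c) (inter_subset_right.trans (W.Sp_comm a c).subset),
    r a b (W.Sp b c ∩ W.Sp b a) (inter_subset_right.trans (W.Sp_comm b a).subset),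
    r b c (W.Sp c a ∩ W.Sp c b) (inter_subset_right.trans (W.Sp_comm c b).subset)]
  abel

theorem defect_card (a b c : P) : #(W.q a b + W.q b c - W.q a c).support ≤ Nl d + Nl d + Nl d := by
  rw [defect]
  exact (card_le_card Finsupp.support_add).trans ((card_union_le _ _).trans (add_le_add
    ((card_le_card Finsupp.support_add).trans ((card_union_le _ _).trans
      (add_le_add (W.leg_card _ _ _) (W.leg_card _ _ _)))) (W.leg_card _ _ _)))

/-- **an exact bicombing with bounded triangle defect** -/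
theorem bic {G : Type*} [Group G] [MulAction G P] (act : ∀ (g : G) H, ∃ K, ∀ z, σ K (g • z) = σ H z)
    (lf : ∀ (v : P) (R : ℕ), {w | {H | σ H v ≠ σ H w}.ncard ≤ R}.Finite)
    (cof : ∃ B : Set P, B.Finite ∧ ∀ v, ∃ g : G, g • v ∈ B)
    (st : ∀ v : P, {g : G | g • v = v}.Finite) (ne : Nonempty P) :
    @Bic G P W.E _ _ (W.eact act) (fun e => e.1.1) (fun e => e.1.2) W.q (2 * d.factorial)
      (Nl d + Nl d + Nl d) := by
  let _ := W.eact act
  refine ⟨fun _ _ => rfl, fun _ _ => rfl, fun v => ?_, cof, st, ne,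
    mul_ne_zero two_ne_zero (Nat.cast_ne_zero.2 d.factorial_ne_zero), W.bdh_q, W.q_smul act,
    W.defect_card⟩
  have h : ∀ x y, {H | σ H x ≠ σ H y}.ncard = #(W.Sp x y) := fun x y => Set.ncard_eq_toFinset_card _ _
  refine Set.Finite.of_finite_image (f := Subtype.val) ((((lf v (3 * d)).image fun w => (v, w)).union
    ((lf v (3 * d)).image fun w => (w, v))).subset ?_) Subtype.val_injective.injOn
  rintro _ ⟨⟨⟨x, y⟩, k⟩, rfl | rfl, rfl⟩
  · exact .inl ⟨y, (h _ _).trans_le k, rfl⟩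
  · exact .inr ⟨x, ((h _ _).trans (congrArg card (W.Sp_comm _ _))).trans_le k, rfl⟩

end WS

end Crest.Agent.N233.Ou
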