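import Crest.Agent.N233.Ou.Ws
import Crest.Agent.N233.Ou.R2b
import Crest.Agent.N233.Rg.Rel

/-!
# Row 233 (helper16): the wall space of a locally convex labelled graph
-/

set_option autoImplicit false

noncomputable section

namespace Crest.Agent.N233.Ou

open N255.Ra N255.Fa Hyp Rg Set
open scoped Classical Pointwise

variable {A P : Type} {Γ : SimpleGraph A} {st : P → A → P → Prop} {φ : P → W Γ}

variable (st φ) in
/-- a choice of one side of every hyperplane -/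
structure Ori (O : Set (Set P)) : Prop where
  isH : ∀ h ∈ O, IsH st φ h
  tot : ∀ h, IsH st φ h → h ∈ O ∨ hᶜ ∈ O
  not : ∀ h ∈ O, hᶜ ∉ O

/-- the side function -/
def sid (O : Set (Set P)) (h : O) (z : P) : Bool := decide (z ∈ h.1)

variable {O : Set (Set P)} {x y z : P} {a : A} {h h' k k' Q : Set P}

theorem sid_eq {i j : O} : sid O i x = sid O j y ↔ (x ∈ i.1 ↔ y ∈ j.1) := decide_eq_decide

theorem Cr.ex {i j : O} (c : Cr (sid O) i j) (p q : Prop) : ∃ z, (z ∈ i.1 ↔ p) ∧ (z ∈ j.1 ↔ q) :=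
  (c (decide p) (decide q)).imp fun _ e => ⟨decide_eq_decide.1 e.1, decide_eq_decide.1 e.2⟩

section lab
variable (H : Lab Γ st φ)
include H

theorem isH_edge (e : st x a y) (hh : IsH st φ h) (n : ¬(x ∈ h ↔ y ∈ h)) :
    h = Hs φ x y ∨ h = Hs φ y x := by
  by_cases c : x ∈ h
  exacts [.inl (hh.eq H e c (by tauto)), .inr (hh.eq H (H.symm _ _ _ e) (by tauto) c)]

theorem sepH_finite (x y : P) : {h | IsH st φ h ∧ ¬(x ∈ h ↔ y ∈ h)}.Finite := by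
  induction H.conn x y with
  | refl => simp
  | @tail u v _ e ih =>
    obtain ⟨a, e⟩ := e
    refine ((ih.insert (Hs φ u v)).insert (Hs φ v u)).subset fun h hh => ?_
    by_cases c : u ∈ h ↔ v ∈ h
    · exact .inr (.inr ⟨hh.1, fun m => hh.2 (m.trans c)⟩)
    · exact (isH_edge H e hh.1 c).elim (fun m => .inr (.inl m)) .inl

theorem exists_median (x y z : P) : ∃ m, ∀ h, IsH st φ h →
    (x ∈ h ∧ y ∈ h ∨ y ∈ h ∧ z ∈ h ∨ x ∈ h ∧ z ∈ h) → m ∈ h := by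
  obtain ⟨m, hm⟩ := exists_vertex H
    (U := {h | IsH st φ h ∧ (x ∈ h ∧ y ∈ h ∨ y ∈ h ∧ z ∈ h ∨ x ∈ h ∧ z ∈ h)}) (fun _ h => h.1)
    (fun h hh => by
      simp only [mem_ofPred_eq, hh, hh.compl H, true_and, mem_compl_iff]
      tauto)
    (fun h hh k hk => by
      rcases hh.2 with a | a | a <;> rcases hk.2 with b | b | b
      exacts [⟨x, a.1, b.1⟩, ⟨y, a.2, b.1⟩, ⟨x, a.1, b.1⟩, ⟨y, a.1, b.2⟩, ⟨y, a.1, b.1⟩,
        ⟨z, a.2, b.2⟩, ⟨x, a.1, b.1⟩, ⟨z, a.2, b.2⟩, ⟨x, a.1, b.1⟩])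
    x ((sepH_finite H x y).subset fun h hh => ⟨hh.1.1, by have := hh.1.2; have := hh.2; tauto⟩)
  exact ⟨m, fun h a b => hm h ⟨a, b⟩⟩

/-- a step towards a point of `Q` does not increase the distance to `Q` -/
theorem ns_step_le (e : st x a y) (hz : z ∈ Q) (m : z ∈ Hs φ y x) : ns φ Q y ≤ ns φ Q x := by
  by_cases v : Vert φ Q (hp φ x a)
  · rw [← Hs_compl H e, mem_compl_iff, mem_Hs H e] at m
    exact (ns_desc H ⟨z, hz⟩ e fun w hw => v z hz w hw ▸ Ne.symm m) ▸ Nat.le_succ _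
  · rw [ns, sep_hor H e v, ns]

theorem exists_toward (hh : IsH st φ h) (hx : x ∈ h) :
    ∃ a y, st x a y ∧ hᶜ ⊆ Hs φ y x ∧ ns φ hᶜ x = ns φ hᶜ y + 1 ∧ (y ∉ h → h = Hs φ x y) := by
  have cv := (hh.compl H).cvx H
  obtain ⟨a, y, e, s⟩ := exists_desc H cv.ne (cv.sep x (not_not.2 hx))
  refine ⟨a, y, e, fun z hz => ?_, ns_desc H cv.ne e s, hh.eq H e hx⟩
  rw [← Hs_compl H e]
  exact fun m => s z hz ((mem_Hs H e).1 m).symm

/-- pairwise crossing hyperplanes touch a common vertex -/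
theorem touch {ι : Type*} (T : Finset ι) (k : ι → Set P) (hk : ∀ i ∈ T, IsH st φ (k i))
    (c1 : ∀ i ∈ T, ∀ j ∈ T, i ≠ j → ((k i)ᶜ ∩ (k j)ᶜ).Nonempty)
    (c2 : ∀ i ∈ T, ∀ j ∈ T, i ≠ j → ((k i)ᶜ ∩ k j).Nonempty) (x : P) (hx : ∀ i ∈ T, x ∈ k i) :
    ∃ x, ∀ i ∈ T, ∃ a y, st x a y ∧ k i = Hs φ x y := by
  induction hn : ∑ i ∈ T, ns φ (k i)ᶜ x using Nat.strong_induction_on generalizing x with
  | _ n ih =>
  by_cases c : ∀ i ∈ T, ∃ a y, st x a y ∧ k i = Hs φ x y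
  · exact ⟨x, c⟩
  push Not at c
  obtain ⟨i, hi, c⟩ := c
  obtain ⟨a, y, e, sub, d, q⟩ := exists_toward H (hk i hi) (hx i hi)
  have hy : ∀ j ∈ T, y ∈ k j := fun j hj => by_contra fun m => by
    by_cases ij : i = j
    · exact c a y e (q (ij ▸ m))
    obtain ⟨z, z1, z2⟩ := c2 i hi j hj ij
    rw [(hk j hj).eq H e (hx j hj) m, ← Hs_compl H (H.symm _ _ _ e)] at z2
    exact z2 (sub z1)
  refine ih _ (hn ▸ Finset.sum_lt_sum (fun j hj => ?_) ⟨i, hi, by omega⟩) y hy rfl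
  by_cases ij : i = j
  · rw [← ij]; omega
  obtain ⟨z, z1, z2⟩ := c1 i hi j hj ij
  exact ns_step_le H e z2 (sub z1)

theorem adj_of_far {b : A} {u : P} (e : st x a y) (e' : st x b u) (n : a ≠ b)
    (m : ((Hs φ x y)ᶜ ∩ (Hs φ x u)ᶜ).Nonempty) : Γ.Adj a b := by
  obtain ⟨z, z1, z2⟩ := m
  rw [mem_compl_iff, mem_Hs H e] at z1
  rw [mem_compl_iff, mem_Hs H e'] at z2
  exact adj_of_sep (Ne.symm z1) (Ne.symm z2) n

theorem far_of_adj {b : A} {u : P} (e : st x a y) (e' : st x b u) (j : Γ.Adj a b) :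
    ((Hs φ x y)ᶜ ∩ (Hs φ x u)ᶜ).Nonempty := by
  obtain ⟨w, w1, w2⟩ := H.dia x a b y u j e e'
  refine ⟨w, fun m => ?_, fun m => ?_⟩
  · rw [mem_Hs H e, sd_st H w1 (by rw [hp_adj H e j]; exact fun q => j.ne (hw_inj q))] at m
    exact sd_st_ne H e m.symm
  · rw [mem_Hs H e', sd_st H w2 (by rw [hp_adj H e' j.symm]; exact fun q => j.ne' (hw_inj q))] at m
    exact sd_st_ne H e' m.symm

omit H in
variable (st φ) in
/-- a square of half spaces around `x` -/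
structure Sq (h h' k k' : Set P) (x : P) : Prop where
  i1 : IsH st φ h
  i2 : IsH st φ h'
  i3 : IsH st φ k
  i4 : IsH st φ k'
  m1 : x ∈ h
  m2 : x ∈ h'
  m3 : x ∈ k
  m4 : x ∈ k'
  d1 : ∀ z, z ∉ h → z ∈ h'
  d2 : ∀ z, z ∉ k → z ∈ k'
  c1 : (hᶜ ∩ kᶜ).Nonempty
  c2 : (hᶜ ∩ k'ᶜ).Nonempty
  c3 : (h'ᶜ ∩ kᶜ).Nonempty
  c4 : (h'ᶜ ∩ k'ᶜ).Nonempty

omit H in
theorem Sq.s1 (s : Sq st φ h h' k k' x) : Sq st φ h' h k' k x :=
  ⟨s.i2, s.i1, s.i4, s.i3, s.m2, s.m1, s.m4, s.m3, fun z m => by_contra fun n => m (s.d1 z n),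
    fun z m => by_contra fun n => m (s.d2 z n), s.c4, s.c3, s.c2, s.c1⟩

omit H in
theorem Sq.s2 (s : Sq st φ h h' k k' x) : Sq st φ k k' h h' x :=
  ⟨s.i3, s.i4, s.i1, s.i2, s.m3, s.m4, s.m1, s.m2, s.d2, s.d1, inter_comm _ _ ▸ s.c1,
    inter_comm _ _ ▸ s.c3, inter_comm _ _ ▸ s.c2, inter_comm _ _ ▸ s.c4⟩

theorem Sq.step (s : Sq st φ h h' k k' x) : (∃ a y, st x a y ∧ h = Hs φ x y) ∨
    ∃ g y, Sq st φ g h' k k' y ∧ ns φ gᶜ y + ns φ h'ᶜ y + (ns φ kᶜ y + ns φ k'ᶜ y) <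
      ns φ hᶜ x + ns φ h'ᶜ x + (ns φ kᶜ x + ns φ k'ᶜ x) := by
  obtain ⟨a, y, e, sub, d, q⟩ := exists_toward H s.i1 s.m1
  by_cases hy : y ∈ h
  swap
  · exact .inl ⟨a, y, e, q hy⟩
  have e' := H.symm _ _ _ e
  have cp := Hs_compl H e
  obtain ⟨z1, a1, b1⟩ := s.c1
  obtain ⟨z2, a2, b2⟩ := s.c2
  refine .inr ?_
  by_cases c : ∀ z, z ∈ Hs φ y x → z ∈ h'
  · refine ⟨Hs φ x y, x, { s with
      i1 := ⟨_, _, _, e, rfl⟩, m1 := self_mem H e, d1 := fun z m => c z (cp ▸ m)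
      c1 := ⟨z1, cp ▸ sub a1, b1⟩, c2 := ⟨z2, cp ▸ sub a2, b2⟩ }, ?_⟩
    have h1 : ns φ (Hs φ x y)ᶜ x ≤ 1 := (ns_le_dl H (not_mem H e) x).trans (H.dl_st e').le
    have h2 : ns φ hᶜ y ≠ 0 := fun m => ((s.i1.compl H).cvx H).mem_of_ns H m hy
    omega
  · push Not at c
    obtain ⟨z, z3, z4⟩ := c
    have key : ∀ g, IsH st φ g → x ∈ g → (∃ w, w ∉ h ∧ w ∈ g) → y ∈ g := fun g a b ⟨w, w1, w2⟩ =>
      by_contra fun m => by
        rw [a.eq H e b m, ← Hs_compl H e'] at w2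
        exact w2 (sub w1)
    refine ⟨h, y, { s with
      m1 := hy, m2 := key _ s.i2 s.m2 ⟨z1, a1, s.d1 _ a1⟩
      m3 := key _ s.i3 s.m3 ⟨z2, a2, s.s1.d2 _ b2⟩, m4 := key _ s.i4 s.m4 ⟨z1, a1, s.d2 _ b1⟩ }, ?_⟩
    have := ns_step_le H (Q := h'ᶜ) e z4 z3
    have := ns_step_le H e b1 (sub a1)
    have := ns_step_le H e b2 (sub a2)
    omega

theorem Sq.false (hq : NoSq Γ) (s : Sq st φ h h' k k' x) : False := by
  induction hn : ns φ hᶜ x + ns φ h'ᶜ x + (ns φ kᶜ x + ns φ k'ᶜ x) using Nat.strong_induction_on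
    generalizing h h' k k' x with
  | _ n ih =>
  rcases s.step H with ⟨a, y, e, rfl⟩ | ⟨g, y, t, l⟩
  swap
  · exact ih _ (hn ▸ l) t rfl
  rcases s.s1.step H with ⟨a', y', e', rfl⟩ | ⟨g, y, t, l⟩
  swap
  · exact ih _ (by omega) t rfl
  rcases s.s2.step H with ⟨b, u, f, rfl⟩ | ⟨g, y, t, l⟩
  swap
  · exact ih _ (by omega) t rfl
  rcases s.s1.s2.step H with ⟨b', u', f', rfl⟩ | ⟨g, y, t, l⟩
  swap
  · exact ih _ (by omega) t rfl
  have ne : ∀ {a b : A} {y u : P}, st x a y → st x b u → (∃ z, z ∉ Hs φ x y ∧ z ∈ Hs φ x u) → a ≠ b :=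
    fun e e' ⟨z, z1, z2⟩ m => z1 (H.det _ _ _ _ e (m ▸ e') ▸ z2)
  obtain ⟨z1, a1, b1⟩ := s.c1
  obtain ⟨z2, a2, b2⟩ := s.c2
  obtain ⟨z3, a3, b3⟩ := s.c3
  obtain ⟨z4, a4, b4⟩ := s.c4
  rcases hq a b a' b' (adj_of_far H e f (ne e f ⟨z2, a2, s.s1.d2 _ b2⟩) s.c1)
    (adj_of_far H e' f (ne e' f ⟨z4, a4, s.s1.d2 _ b4⟩) s.c3).symm
    (adj_of_far H e' f' (ne e' f' ⟨z3, a3, s.d2 _ b3⟩) s.c4)
    (adj_of_far H e f' (ne e f' ⟨z1, a1, s.d2 _ b1⟩) s.c2).symm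
    (ne e e' ⟨z1, a1, s.d1 _ a1⟩) (ne f f' ⟨z1, b1, s.d2 _ b1⟩) with j | j
  · obtain ⟨w, w1, w2⟩ := far_of_adj H e e' j
    exact w2 (s.d1 w w1)
  · obtain ⟨w, w1, w2⟩ := far_of_adj H f f' j
    exact w2 (s.d2 w w1)

theorem helly4 (i1 : IsH st φ h) (i2 : IsH st φ h') (i3 : IsH st φ k) (i4 : IsH st φ k')
    (a : (h ∩ h').Nonempty) (b : (k ∩ k').Nonempty) (c1 : (h ∩ k).Nonempty) (c2 : (h ∩ k').Nonempty)
    (c3 : (h' ∩ k).Nonempty) (c4 : (h' ∩ k').Nonempty) : ∃ x, x ∈ h ∧ x ∈ h' ∧ x ∈ k ∧ x ∈ k' := by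
  obtain ⟨p, p1, p2⟩ := a
  obtain ⟨q, q1, q2⟩ := b
  obtain ⟨u, hu⟩ := exists_median H p c1.some c3.some
  obtain ⟨v, hv⟩ := exists_median H p c2.some c4.some
  obtain ⟨w, hw⟩ := exists_median H u v q
  exact ⟨w, hw _ i1 (.inl ⟨hu _ i1 (.inl ⟨p1, c1.some_mem.1⟩), hv _ i1 (.inl ⟨p1, c2.some_mem.1⟩)⟩),
    hw _ i2 (.inl ⟨hu _ i2 (.inr (.inr ⟨p2, c3.some_mem.1⟩)), hv _ i2 (.inr (.inr ⟨p2, c4.some_mem.1⟩))⟩),
    hw _ i3 (.inr (.inr ⟨hu _ i3 (.inr (.inl ⟨c1.some_mem.2, c3.some_mem.2⟩)), q1⟩)),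
    hw _ i4 (.inr (.inl ⟨hv _ i4 (.inr (.inl ⟨c2.some_mem.2, c4.some_mem.2⟩)), q2⟩))⟩

variable (R : Ori st φ O)
include R

omit H in
theorem Ori.ext {i j : O} (e : (∀ z, z ∈ i.1 ↔ z ∈ j.1) ∨ ∀ z, ¬(z ∈ i.1 ↔ z ∈ j.1)) : i = j :=
  e.elim (fun e => Subtype.ext (Set.ext e)) fun e => (R.not _ i.2 (by
    rw [show i.1ᶜ = j.1 from Set.ext fun z => by have := e z; rw [mem_compl_iff]; tauto]
    exact j.2)).elim

/-- the side `p` of a wall -/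
theorem isH_side (i : O) (p : Prop) : IsH st φ {z | z ∈ i.1 ↔ p} := by
  by_cases c : p
  · simpa [c] using R.isH _ i.2
  · simp only [c, iff_false]
    exact (R.isH _ i.2).compl H

theorem sid_finite (x y : P) : {i : O | sid O i x ≠ sid O i y}.Finite :=
  ((sepH_finite H x y).preimage Subtype.val_injective.injOn).subset fun i m =>
    ⟨R.isH _ i.2, fun e => m (sid_eq.2 e)⟩

/-- **the wall space** -/
theorem ws_lab (hq : NoSq Γ) {d : ℕ} (hd : ClB Γ d) : WS (sid O) d where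
  fin := sid_finite H R
  inj x y e := eq_of_IsH H fun h hh m => (R.tot h hh).elim (fun o => (sid_eq.1 (e ⟨h, o⟩)).1 m)
    fun o => by_contra fun n => (sid_eq.1 (e ⟨hᶜ, o⟩)).2 n m
  ext i j e := R.ext (e.imp (fun e z => sid_eq.1 (e z)) fun e z m => e z (sid_eq.2 m))
  med x y z := (exists_median H x y z).imp fun m hm i => by
    simp only [sid_eq]
    exact ⟨fun e => hm _ (isH_side H R i _) (.inl ⟨Iff.rfl, e.symm⟩),
      fun e => hm _ (isH_side H R i _) (.inr (.inl ⟨Iff.rfl, e.symm⟩)),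
      fun e => hm _ (isH_side H R i _) (.inr (.inr ⟨Iff.rfl, e.symm⟩))⟩
  dim T c := by
    rcases T.eq_empty_or_nonempty with rfl | ⟨i0, -⟩
    · simp
    obtain ⟨x0, -⟩ := (R.isH _ i0.2).ne H
    have c1 : ∀ i ∈ T, ∀ j ∈ T, i ≠ j →
        ({z | z ∈ i.1 ↔ x0 ∈ i.1}ᶜ ∩ {z | z ∈ j.1 ↔ x0 ∈ j.1}ᶜ).Nonempty := fun i hi j hj n =>
      ((c hi hj n).ex (x0 ∉ i.1) (x0 ∉ j.1)).imp fun z m =>
        ⟨fun q => iff_not_self (q.symm.trans m.1), fun q => iff_not_self (q.symm.trans m.2)⟩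
    have c2 : ∀ i ∈ T, ∀ j ∈ T, i ≠ j →
        ({z | z ∈ i.1 ↔ x0 ∈ i.1}ᶜ ∩ {z | z ∈ j.1 ↔ x0 ∈ j.1}).Nonempty := fun i hi j hj n =>
      ((c hi hj n).ex (x0 ∉ i.1) (x0 ∈ j.1)).imp fun z m =>
        ⟨fun q => iff_not_self (q.symm.trans m.1), m.2⟩
    obtain ⟨x, hx⟩ := touch H T (fun i => {z | z ∈ i.1 ↔ x0 ∈ i.1}) (fun i _ => isH_side H R i _)
      c1 c2 x0 fun _ _ => Iff.rfl
    have : Nonempty A := (R.isH _ i0.2).elim fun _ ⟨a, _⟩ => ⟨a⟩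
    have : Nonempty P := ⟨x⟩
    choose! a y e q using hx
    have ne : ∀ i ∈ T, ∀ j ∈ T, i ≠ j → a i ≠ a j := fun i hi j hj n m => by
      obtain ⟨z, z1, z2⟩ := c2 i hi j hj n
      rw [q i hi, H.det _ _ _ _ (e i hi) (m ▸ e j hj), ← q j hj] at z1
      exact z1 z2
    rw [← Finset.card_image_of_injOn (f := a) fun i hi j hj m => by_contra fun n => ne i hi j hj n m]
    refine hd _ ?_
    rw [Finset.coe_image]
    rintro _ ⟨i, hi, rfl⟩ _ ⟨j, hj, rfl⟩ n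
    exact adj_of_far H (e i hi) (e j hj) n
      (q i hi ▸ q j hj ▸ c1 i hi j hj fun m => n (m ▸ rfl))
  nsq i i' j j' n n' c1 c2 c3 c4 := by
    by_contra c
    simp only [Cr, not_or, not_forall, not_exists, not_and] at c
    obtain ⟨⟨p, p', hp⟩, q, q', hq'⟩ := c
    have side : ∀ (i : O) (p : Bool) z, sid O i z = p ↔ ¬(z ∈ i.1 ↔ p = false) := fun i p z => by
      cases p <;> simp [sid]
    have mt : ∀ (i i' : O) (p p' : Bool), i ≠ i' → (∀ z, sid O i z = p → ¬sid O i' z = p') →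
        ({z | z ∈ i.1 ↔ p = false} ∩ {z | z ∈ i'.1 ↔ p' = false}).Nonempty := fun i i' p p' n m => by
      by_contra e
      simp only [Set.Nonempty, mem_inter_iff, mem_ofPred_eq, not_exists] at e
      simp only [side] at m
      refine n (R.ext ?_)
      by_cases v : p = false ↔ p' = false
      · exact .inr fun z => by have := e z; have := m z; tauto
      · exact .inl fun z => by have := e z; have := m z; tauto
    have nr : ∀ {i j : O} (p q : Bool), Cr (sid O) i j →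
        ({z | z ∈ i.1 ↔ p = false} ∩ {z | z ∈ j.1 ↔ q = false}).Nonempty := fun p q c => c.ex _ _
    have fr : ∀ {i j : O} (p q : Bool), Cr (sid O) i j →
        ({z | z ∈ i.1 ↔ p = false}ᶜ ∩ {z | z ∈ j.1 ↔ q = false}ᶜ).Nonempty := fun p q c =>
      (c p q).imp fun z m => ⟨(side _ _ _).1 m.1, (side _ _ _).1 m.2⟩
    obtain ⟨x, m1, m2, m3, m4⟩ := helly4 H (isH_side H R i _) (isH_side H R i' _) (isH_side H R j _)
      (isH_side H R j' _) (mt i i' p p' n hp) (mt j j' q q' n' hq') (nr p q c1) (nr p q' c2)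
      (nr p' q c3) (nr p' q' c4)
    exact Sq.false H hq ⟨isH_side H R i _, isH_side H R i' _, isH_side H R j _, isH_side H R j' _,
      m1, m2, m3, m4, fun z m => by_contra fun e => hp z ((side _ _ _).2 m) ((side _ _ _).2 e),
      fun z m => by_contra fun e => hq' z ((side _ _ _).2 m) ((side _ _ _).2 e),
      fr p q c1, fr p q' c2, fr p' q c3, fr p' q' c4⟩

theorem card_sep (x y : P) : dl φ x y ≤ {i : O | sid O i x ≠ sid O i y}.ncard := by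
  generalize hn : dl φ x y = n
  induction n generalizing y with
  | zero => exact Nat.zero_le _
  | succ n ih =>
    obtain ⟨a, u, e, h1, h2⟩ := exists_step H hn
    have e' := H.symm _ _ _ e
    have b1 := self_mem H e'
    have b2 := not_mem H e'
    refine (ih u h1).trans_lt (ncard_lt_ncard ⟨fun i m q => m ?_, fun s => ?_⟩ (sid_finite H R x y))
    · rw [sid_eq] at q ⊢
      by_contra c
      rcases isH_edge H e (R.isH _ i.2) (fun w => c (q.trans w)) with w | w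
      · rw [w, ← Hs_compl H e'] at c
        exact c (iff_of_false (fun v => v h2) fun v => v b1)
      · rw [w] at c
        exact c (iff_of_true h2 b1)
    · rcases R.tot _ ⟨_, _, _, e', rfl⟩ with o | o
      · exact s (a := ⟨_, o⟩) (fun v => b2 ((sid_eq.1 v).1 h2)) (sid_eq.2 (iff_of_true h2 b1))
      · exact s (a := ⟨_, o⟩) (fun v => (sid_eq.1 v).2 b2 h2)
          (sid_eq.2 (iff_of_false (fun v => v h2) fun v => v b1))

end lab

section act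
variable {G : Type*} [Group G] [MulAction G P]

theorem sid_act (ho : ∀ (g : G), ∀ h ∈ O, g • h ∈ O) (g : G) (i : O) :
    ∃ j : O, ∀ z, sid O j (g • z) = sid O i z :=
  ⟨⟨g • i.1, ho g _ i.2⟩, fun _ => sid_eq.2 smul_mem_smul_set_iff⟩

variable (H : Lab Γ st φ) (hi : ∀ (g : G) x a y, st x a y → ∃ b, st (g • x) b (g • y))
include H hi

theorem isH_smul (hh : IsH st φ h) (g : G) : IsH st φ (g • h) := by
  obtain ⟨x, a, y, e, rfl⟩ := hh
  obtain ⟨b, e'⟩ := hi g x a y e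
  exact ⟨_, b, _, e', smul_Hs H hi g x y⟩

/-- **an action without inversions preserves an orientation** -/
theorem exists_ori (ni : ∀ (g : G) x a y, st x a y → g • Hs φ x y ≠ Hs φ y x) :
    ∃ O, Ori st φ O ∧ ∀ (g : G), ∀ h ∈ O, g • h ∈ O := by
  let C : Set P → Set P → Prop := fun h k => ∃ g : G, k = g • h ∨ k = g • hᶜ
  have c1 : ∀ (g : G) h, C (g • h) = C h := fun g h => funext fun k => propext
    ⟨fun ⟨u, e⟩ => ⟨u * g, by simpa [mul_smul, smul_set_compl] using e⟩,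
      fun ⟨u, e⟩ => ⟨u * g⁻¹, by simpa [mul_smul, smul_set_compl] using e⟩⟩
  have c2 : ∀ h, C hᶜ = C h := fun h => funext fun k => by simp only [C, compl_compl, or_comm]
  refine ⟨{h | IsH st φ h ∧ ∃ g : G, Classical.epsilon (C h) = g • h}, ⟨fun _ h => h.1, fun h hh => ?_,
    fun h ⟨hh, g, e⟩ ⟨_, g', e'⟩ => ?_⟩, fun g h ⟨hh, u, e⟩ =>
      ⟨isH_smul H hi hh g, u * g⁻¹, by rw [c1, e, mul_smul, inv_smul_smul]⟩⟩
  · obtain ⟨g, e | e⟩ := Classical.epsilon_spec (p := C h) ⟨h, 1, .inl (one_smul _ _).symm⟩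
    exacts [.inl ⟨hh, g, e⟩, .inr ⟨hh.compl H, g, by rw [c2, e]⟩]
  · obtain ⟨x, a, y, s, rfl⟩ := hh
    rw [c2, e] at e'
    exact ni (g'⁻¹ * g) x a y s (by rw [mul_smul, e', inv_smul_smul, Hs_compl H s])

/-- everything that `WS.bic` needs -/
theorem exists_ws (hq : NoSq Γ) {d : ℕ} (hd : ClB Γ d) (hl : ∀ x, {y | ∃ a, st x a y}.Finite)
    (ni : ∀ (g : G) x a y, st x a y → g • Hs φ x y ≠ Hs φ y x) :
    ∃ (ι : Type) (σ : ι → P → Bool), WS σ d ∧ (∀ (g : G) i, ∃ j, ∀ z, σ j (g • z) = σ i z) ∧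
      ∀ v R, {w | {i | σ i v ≠ σ i w}.ncard ≤ R}.Finite := by
  obtain ⟨O, R, ho⟩ := exists_ori H hi ni
  exact ⟨O, sid O, ws_lab H R hq hd, sid_act ho, fun v n =>
    (ball_fin H hl v n).subset fun w m => (card_sep H R v w).trans m⟩

end act

end Crest.Agent.N233.Ou

end
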