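import Crest.Agent.N233.Ou.Ws

/-!
# Row 233 (helper51): order of the walls separating two points, Helly, canonical vertices of cuts
-/

set_option autoImplicit false

noncomputable section

namespace Crest.Agent.N233.Ou

open Classical Finset

variable {ι P : Type*} {σ : ι → P → Bool} {d : ℕ} {a b c : P} {H K L H' K' : ι}

theorem bne {x y z : Bool} (h : x ≠ z) (k : y ≠ z) : x = y := by revert x y z; decide

theorem Cr.symm (h : Cr σ H K) : Cr σ K H := fun p q => (h q p).imp fun _ h => h.symm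

theorem Cr.ne (h : Cr σ H K) : H ≠ K := by
  rintro rfl
  obtain ⟨z, h1, h2⟩ := h true false
  simp [h1] at h2

variable (σ) in
/-- `H` is nearer to `a` than `K` -/
def Lt (a : P) (H K : ι) : Prop := H ≠ K ∧ ∀ z, σ H z = σ H a → σ K z = σ K a

variable (σ) in
/-- `H` separates `a` from `b` -/
def In (a b : P) (H : ι) : Prop := σ H a ≠ σ H b

variable (σ) in
def Le (a : P) (H K : ι) : Prop := H = K ∨ Lt σ a H K

theorem In.symm (h : In σ a b H) : In σ b a H := Ne.symm h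

theorem In_comm : In σ a b H ↔ In σ b a H := ⟨In.symm, In.symm⟩

theorem Lt.le (h : Lt σ a H K) : Le σ a H K := .inr h

theorem Lt.ncr (h : Lt σ a H K) : ¬Cr σ H K := fun k => by
  obtain ⟨z, h1, h2⟩ := k (σ H a) (!σ K a)
  simp [h.2 z h1] at h2

theorem Le.side (h : Le σ a H K) (z : P) (e : σ H z = σ H a) : σ K z = σ K a := by
  rcases h with rfl | h
  exacts [e, h.2 z e]

theorem Lt.rev (h : Lt σ a H K) (hH : In σ a b H) (hK : In σ a b K) : Lt σ b K H :=
  ⟨h.1.symm, fun z e => bne (fun l => hK ((h.2 z l).symm.trans e)) hH.symm⟩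

theorem tri (hH : In σ a b H) (hK : In σ a b K) : H = K ∨ Lt σ a H K ∨ Lt σ a K H ∨ Cr σ H K := by
  by_contra n
  simp only [not_or, Lt, not_and, not_forall] at n
  obtain ⟨n1, n2, n3, n4⟩ := n
  obtain ⟨z, z1, z2⟩ := n2 n1
  obtain ⟨w, w1, w2⟩ := n3 (Ne.symm n1)
  refine n4 fun p q => ?_
  by_cases e : p = σ H a <;> by_cases f : q = σ K a
  exacts [⟨a, e.symm, f.symm⟩, ⟨z, z1.trans e.symm, bne z2 f⟩, ⟨w, bne w2 e, w1.trans f.symm⟩,
    ⟨b, bne hH.symm e, bne hK.symm f⟩]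

/-- the walls crossing `H` form an order convex set -/
theorem Cr.cvx (h1 : Cr σ H K') (h2 : Cr σ H L) (k1 : Le σ a K' K) (k2 : Le σ a K L) : Cr σ H K := by
  intro p q
  by_cases f : q = σ K a
  · obtain ⟨z, z1, z2⟩ := h1 p (σ K' a)
    exact ⟨z, z1, f ▸ k1.side z z2⟩
  · obtain ⟨z, z1, z2⟩ := h2 p (!σ L a)
    exact ⟨z, z1, bne (fun l => by simp [k2.side z l] at z2) f⟩

/-- down closedness of the common part -/
theorem Lt.in_of (h : Lt σ a H K) (hK : In σ a c K) : In σ a c H := fun e =>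
  hK (h.2 c e.symm).symm

namespace WS

variable (W : WS σ d)
include W

theorem trans (h : Lt σ a H K) (k : Lt σ a K L) : Lt σ a H L := by
  refine ⟨fun e => h.1 (W.ext _ _ ?_), fun z e => k.2 z (h.2 z e)⟩
  subst e
  by_cases e : σ H a = σ K a
  · refine .inl fun z => ?_
    by_cases f : σ H z = σ H a
    exacts [f.trans (e.trans (h.2 z f).symm), bne (e ▸ f) fun l => f (k.2 z l)]
  · refine .inr fun z l => ?_
    by_cases f : σ H z = σ H a
    exacts [e (f.symm.trans (l.trans (h.2 z f))), f (k.2 z (l.symm.trans (bne f (Ne.symm e))))]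

theorem asymm (h : Lt σ a H K) (k : Lt σ a K H) : False := (W.trans h k).1 rfl

theorem le_lt (h : Le σ a H K) (k : Lt σ a K L) : Lt σ a H L := by
  rcases h with rfl | h
  exacts [k, W.trans h k]

theorem lt_le (h : Lt σ a H K) (k : Le σ a K L) : Lt σ a H L := by
  rcases k with rfl | k
  exacts [h, W.trans h k]

theorem le_le (h : Le σ a H K) (k : Le σ a K L) : Le σ a H L := by
  rcases k with rfl | k
  exacts [h, (W.le_lt h k).le]

theorem sq (n : H ≠ H') (m : ¬Cr σ H H') (k : Lt σ a K K') (h1 : Cr σ H K) (h2 : Cr σ H K')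
    (h3 : Cr σ H' K) (h4 : Cr σ H' K') : False :=
  (W.nsq _ _ _ _ n k.1 h1 h2 h3 h4).elim m k.ncr

/-- two chains of length two are not independent -/
theorem cmp (h : Lt σ a H H') (k : Lt σ a K K') (i1 : In σ a b H) (i2 : In σ a b H') (i3 : In σ a b K)
    (i4 : In σ a b K') (n : ¬Le σ a K H') : Le σ a H K' := by
  by_contra m
  have f : ∀ X Y, In σ a b X → In σ a b Y → Le σ a H X → Le σ a X H' → Le σ a K Y → Le σ a Y K' →
      Cr σ X Y := fun X Y j1 j2 l1 l2 l3 l4 => by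
    rcases tri j1 j2 with e | e | e | e
    · exact absurd (W.le_le l1 (e ▸ l4)) m
    · exact absurd (W.le_le l1 (W.lt_le e l4).le) m
    · exact absurd (W.le_le l3 (W.lt_le e l2).le) n
    · exact e
  exact W.sq h.1 h.ncr k (f _ _ i1 i3 (.inl rfl) h.le (.inl rfl) k.le)
    (f _ _ i1 i4 (.inl rfl) h.le k.le (.inl rfl)) (f _ _ i2 i3 h.le (.inl rfl) (.inl rfl) k.le)
    (f _ _ i2 i4 h.le (.inl rfl) k.le (.inl rfl))

theorem tr_card (n : H ≠ H') (m : ¬Cr σ H H') (T : Finset ι) (h : ∀ K ∈ T, Cr σ H K ∧ Cr σ H' K) :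
    #T ≤ d :=
  W.dim T fun K k K' k' e =>
    (W.nsq _ _ _ _ n e (h K k).1 (h K' k').1 (h K k).2 (h K' k').2).resolve_left m

theorem helly (τ : ι → Bool) (h : ∀ H K, ∃ z, σ H z = τ H ∧ σ K z = τ K) (T : Finset ι) :
    ∀ H K, ∃ z, σ H z = τ H ∧ σ K z = τ K ∧ ∀ L ∈ T, σ L z = τ L := by
  induction T using Finset.induction_on with
  | empty => simpa using h
  | insert L T _ ih =>
    intro H K
    obtain ⟨x, x1, x2, x3⟩ := ih H K
    obtain ⟨y, y1, y2, y3⟩ := ih H L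
    obtain ⟨z, z1, z2, z3⟩ := ih K L
    obtain ⟨m, hm⟩ := W.med x y z
    refine ⟨m, by rw [(hm H).1 (x1.trans y1.symm), x1], by rw [(hm K).2.2 (x2.trans z1.symm), x2], ?_⟩
    intro M hM
    rcases mem_insert.1 hM with rfl | hM
    · rw [(hm M).2.1 (y2.trans z2.symm), y2]
    · rw [(hm M).1 ((x3 M hM).trans (y3 M hM).symm), x3 M hM]

/-- the walls separating two points -/
def Sp (a b : P) : Finset ι := (W.fin a b).toFinset

@[simp] theorem mem_Sp : H ∈ W.Sp a b ↔ In σ a b H := Set.Finite.mem_toFinset _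

theorem Sp_comm (a b : P) : W.Sp a b = W.Sp b a := by ext; simp [In_comm]

/-- consistent orientations at finite distance are points -/
theorem ult (τ : ι → Bool) (h : ∀ H K, ∃ z, σ H z = τ H ∧ σ K z = τ K) (a : P)
    (f : {H | τ H ≠ σ H a}.Finite) : ∃ x, ∀ H, σ H x = τ H := by
  rcases isEmpty_or_nonempty ι with e | ⟨⟨H0⟩⟩
  · exact ⟨a, fun H => e.elim H⟩
  obtain ⟨x0, -, -, hx0⟩ := W.helly τ h f.toFinset H0 H0
  obtain ⟨x, hx, hm⟩ := (measure fun x => #(W.Sp a x)).wf.has_min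
    {x | ∀ L ∈ f.toFinset, σ L x = τ L} ⟨x0, hx0⟩
  refine ⟨x, fun H => by_contra fun n => ?_⟩
  have e : τ H = σ H a := by_contra fun k => n (hx H (f.mem_toFinset.2 k))
  obtain ⟨y, y1, -, y2⟩ := W.helly τ h f.toFinset H H
  obtain ⟨m, k⟩ := W.med a x y
  refine hm m (fun L l => by rw [(k L).2.1 ((hx L l).trans (y2 L l).symm), hx L l])
    (card_lt_card ⟨fun K l => ?_, fun l => ?_⟩)
  · rw [mem_Sp] at l ⊢
    exact fun j => l ((k K).1 j).symm
  · have := l (W.mem_Sp.2 (show In σ a x H from fun j => n (j.symm.trans e.symm)))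
    exact W.mem_Sp.1 this ((k H).2.2 (e.symm.trans y1.symm)).symm

/-- position of a wall between `a` and `b` -/
def pos (a b : P) (K : ι) : ℤ :=
  (#{H ∈ W.Sp a b | Lt σ a H K} : ℤ) - #{H ∈ W.Sp a b | Lt σ a K H}

theorem pos_lt (i : In σ a b H) (h : Lt σ a H K) : W.pos a b H < W.pos a b K := by
  have h1 : #{L ∈ W.Sp a b | Lt σ a L H} < #{L ∈ W.Sp a b | Lt σ a L K} :=
    card_lt_card ⟨fun L l => mem_filter.2 ⟨(mem_filter.1 l).1, W.trans (mem_filter.1 l).2 h⟩,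
      fun l => (mem_filter.1 (l (mem_filter.2 ⟨W.mem_Sp.2 i, h⟩))).2.1 rfl⟩
  have h2 : #{L ∈ W.Sp a b | Lt σ a K L} ≤ #{L ∈ W.Sp a b | Lt σ a H L} :=
    card_le_card fun L l => mem_filter.2 ⟨(mem_filter.1 l).1, W.trans h (mem_filter.1 l).2⟩
  unfold pos
  omega

theorem pos_le (i : In σ a b H) (h : Le σ a H K) : W.pos a b H ≤ W.pos a b K := by
  rcases h with rfl | h
  exacts [le_rfl, (W.pos_lt i h).le]

theorem pos_rev (i : In σ a b K) : W.pos b a K = -W.pos a b K := by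
  have h1 : {H ∈ W.Sp b a | Lt σ b H K} = {H ∈ W.Sp a b | Lt σ a K H} := by
    ext H
    simp only [mem_filter, mem_Sp]
    exact ⟨fun h => ⟨h.1.symm, h.2.rev h.1 i.symm⟩, fun h => ⟨h.1.symm, h.2.rev i h.1⟩⟩
  have h2 : {H ∈ W.Sp b a | Lt σ b K H} = {H ∈ W.Sp a b | Lt σ a H K} := by
    ext H
    simp only [mem_filter, mem_Sp]
    exact ⟨fun h => ⟨h.1.symm, h.2.rev i.symm h.1⟩, fun h => ⟨h.1.symm, h.2.rev h.1 i⟩⟩
  rw [pos, pos, h1, h2, neg_sub]

theorem pos_abs (a b : P) (K : ι) : -(#(W.Sp a b) : ℤ) ≤ W.pos a b K ∧ W.pos a b K ≤ #(W.Sp a b) := by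
  have h1 := card_filter_le (W.Sp a b) fun H => Lt σ a H K
  have h2 := card_filter_le (W.Sp a b) fun H => Lt σ a K H
  unfold pos
  omega

theorem anti_card (T : Finset ι) (i : ∀ K ∈ T, In σ a b K) (h : ∀ H ∈ T, ∀ K ∈ T, ¬Lt σ a H K) :
    #T ≤ d :=
  W.dim T fun H k K k' e => (((tri (i H k) (i K k')).resolve_left e).resolve_left
    (h H k K k')).resolve_left (h K k' H k)

theorem cls_card (T : Finset ι) (t : ℤ) (i : ∀ K ∈ T, In σ a b K ∧ W.pos a b K = t) : #T ≤ d :=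
  W.anti_card T (fun K k => (i K k).1) fun H k K k' l => by
    have := W.pos_lt (i H k).1 l
    rw [(i H k).2, (i K k').2] at this
    exact this.false

omit W in
variable (σ) in
/-- maximal elements -/
def Mx (a : P) (T : Finset ι) : Finset ι := {K ∈ T | ∀ L ∈ T, ¬Lt σ a K L}

theorem mx_card (T : Finset ι) (i : ∀ K ∈ T, In σ a b K) : #(Mx σ a T) ≤ d :=
  W.anti_card _ (fun K k => i K (mem_filter.1 k).1) fun _ k K k' =>
    (mem_filter.1 k).2 K (mem_filter.1 k').1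

theorem exists_mx {T : Finset ι} (i : ∀ K ∈ T, In σ a b K) (h : K ∈ T) :
    ∃ L ∈ Mx σ a T, Le σ a K L := by
  obtain ⟨L, l, m⟩ := exists_max_image {L ∈ T | Le σ a K L} (W.pos a b)
    ⟨K, mem_filter.2 ⟨h, .inl rfl⟩⟩
  obtain ⟨l1, l2⟩ := mem_filter.1 l
  refine ⟨L, mem_filter.2 ⟨l1, fun M k j => ?_⟩, l2⟩
  exact (W.pos_lt (i L l1) j).not_ge (m M (mem_filter.2 ⟨k, (W.le_lt l2 j).le⟩))

/-- Mirsky -/
theorem chain (n : ℕ) : ∀ T : Finset ι, (∀ K ∈ T, In σ a b K) → n * d < #T →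
    ∃ f : ℕ → ι, (∀ i ≤ n, f i ∈ T) ∧ ∀ i < n, Lt σ a (f i) (f (i + 1)) := by
  induction n with
  | zero =>
    intro T _ h
    obtain ⟨K, k⟩ := card_pos.1 (show 0 < #T by omega)
    exact ⟨fun _ => K, fun _ _ => k, fun _ h => by omega⟩
  | succ n ih =>
    intro T i h
    have h1 := W.mx_card T i
    have h2 := le_card_sdiff (Mx σ a T) T
    obtain ⟨f, f1, f2⟩ := ih (T \ Mx σ a T) (fun K k => i K (mem_sdiff.1 k).1)
      (by rw [add_mul] at h; omega)
    obtain ⟨k1, k2⟩ := mem_sdiff.1 (f1 n le_rfl)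
    simp only [Mx, mem_filter, k1, true_and, not_forall, not_not] at k2
    obtain ⟨L, l1, l2⟩ := k2
    refine ⟨fun j => if j ≤ n then f j else L, fun j _ => ?_, fun j hj => ?_⟩
    · dsimp only
      split_ifs with e
      exacts [(mem_sdiff.1 (f1 j e)).1, l1]
    · dsimp only
      rw [if_pos (by omega)]
      split_ifs with e
      · exact f2 j (by omega)
      · rwa [show j = n by omega]

end WS

variable (σ) in
/-- a chain of length four -/
def Ch4 (a : P) (T : ι → Prop) : Prop :=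
  ∃ x1 x2 x3 x4, T x1 ∧ T x2 ∧ T x3 ∧ T x4 ∧ Lt σ a x1 x2 ∧ Lt σ a x2 x3 ∧ Lt σ a x3 x4

variable (σ) in
/-- `H` crosses long chains on both sides of the cut `D` -/
def Mid (a b : P) (D : ι → Prop) (H : ι) : Prop :=
  Ch4 σ a (fun K => In σ a b K ∧ D K ∧ Cr σ H K) ∧ Ch4 σ a fun K => In σ a b K ∧ ¬D K ∧ Cr σ H K

variable (σ) in
/-- the orientation of a cut -/
def t0 (a b : P) (D : ι → Prop) (H : ι) : Bool := if D H then σ H b else σ H a

variable (σ) in
/-- the canonical orientation of a cut -/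
def tau (a b : P) (D : ι → Prop) (H : ι) : Bool := if Mid σ a b D H then true else t0 σ a b D H

variable (σ) in
/-- cuts -/
def Dn (a b : P) (D : ι → Prop) : Prop := ∀ H K, In σ a b H → Lt σ a H K → D K → D H

variable {D D' : ι → Prop}

theorem Dn.le (h : Dn σ a b D) (i : In σ a b H) (l : Le σ a H K) (k : D K) : D H := by
  rcases l with rfl | l
  exacts [k, h _ _ i l k]

theorem Ch4.mono {T T' : ι → Prop} (h : Ch4 σ a T) (k : ∀ x, T x → T' x) : Ch4 σ a T' := by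
  obtain ⟨x1, x2, x3, x4, h1, h2, h3, h4, h5⟩ := h
  exact ⟨x1, x2, x3, x4, k _ h1, k _ h2, k _ h3, k _ h4, h5⟩

theorem Ch4.rev {T : ι → Prop} (h : Ch4 σ a T) (k : ∀ x, T x → In σ a b x) : Ch4 σ b T := by
  obtain ⟨x1, x2, x3, x4, h1, h2, h3, h4, h5, h6, h7⟩ := h
  exact ⟨x4, x3, x2, x1, h4, h3, h2, h1, h7.rev (k _ h3) (k _ h4), h6.rev (k _ h2) (k _ h3),
    h5.rev (k _ h1) (k _ h2)⟩

theorem Mid.rev (h : Mid σ a b D H) (e : ∀ K, In σ a b K → (D' K ↔ ¬D K)) : Mid σ b a D' H :=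
  ⟨(h.2.rev fun _ k => k.1).mono fun x k => ⟨k.1.symm, (e x k.1).2 k.2.1, k.2.2⟩,
    (h.1.rev fun _ k => k.1).mono fun x k => ⟨k.1.symm, fun j => (e x k.1).1 j k.2.1, k.2.2⟩⟩

namespace WS

variable (W : WS σ d)
include W

theorem cmpD (hD : Dn σ a b D) (h : Lt σ a H H') (k : Lt σ a K K') (i1 : In σ a b H) (i2 : In σ a b H')
    (i3 : In σ a b K) (i4 : In σ a b K') (d1 : D H') (d2 : ¬D K) : Le σ a H K' :=
  W.cmp h k i1 i2 i3 i4 fun l => d2 (hD.le i3 l d1)

theorem c0 (hD : Dn σ a b D) (H K : ι) : ∃ z, σ H z = t0 σ a b D H ∧ σ K z = t0 σ a b D K := by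
  have key : ∀ H K, D H → ¬D K → ∃ z, σ H z = σ H b ∧ σ K z = σ K a := fun H K h k => by
    by_cases i : In σ a b H
    · by_cases j : In σ a b K
      · rcases tri i j with e | e | e | e
        · exact absurd (e ▸ h) k
        · by_contra n
          exact W.asymm e ⟨e.1.symm, fun z l => by_contra fun m => n ⟨z, bne m i.symm, l⟩⟩
        · exact absurd (hD _ _ j e h) k
        · exact e _ _
      · exact ⟨b, rfl, (not_not.1 j).symm⟩
    · exact ⟨a, not_not.1 i, rfl⟩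
  unfold t0
  split_ifs with h k k
  exacts [⟨b, rfl, rfl⟩, key H K h k, (key K H k h).imp fun _ h => h.symm, ⟨a, rfl, rfl⟩]

theorem mid_adj (hD : Dn σ a b D) (h : Mid σ a b D H) (n : H ≠ H') (p : Bool) :
    ∃ z, σ H z = p ∧ σ H' z = t0 σ a b D H' := by
  by_contra m
  have nc : ¬Cr σ H H' := fun k => m (k _ _)
  have key : ∀ (K : ι) (u : P), Cr σ H K → σ H' u = t0 σ a b D H' → σ K u ≠ t0 σ a b D K →
      Cr σ H' K := fun K u k h1 h2 s t => by
    by_cases e : s = t0 σ a b D H'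
    · by_cases f : t = t0 σ a b D K
      · rw [e, f]; exact W.c0 hD _ _
      · exact ⟨u, h1.trans e.symm, bne h2 f⟩
    · obtain ⟨z, z1, z2⟩ := k p t
      exact ⟨z, bne (fun l => m ⟨z, z1, l⟩) e, z2⟩
  by_cases e : σ H' a = t0 σ a b D H'
  · obtain ⟨x1, x2, -, -, h1, h2, -, -, l, -⟩ := h.1
    exact W.sq n nc l h1.2.2 h2.2.2 (key _ a h1.2.2 e (by rw [t0, if_pos h1.2.1]; exact h1.1))
      (key _ a h2.2.2 e (by rw [t0, if_pos h2.2.1]; exact h2.1))
  · have e' : σ H' b = t0 σ a b D H' := by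
      unfold t0 at e ⊢
      split_ifs at e ⊢
      exacts [rfl, absurd rfl e]
    obtain ⟨x1, x2, -, -, h1, h2, -, -, l, -⟩ := h.2
    exact W.sq n nc l h1.2.2 h2.2.2 (key _ b h1.2.2 e' (by rw [t0, if_neg h1.2.1]; exact h1.1.symm))
      (key _ b h2.2.2 e' (by rw [t0, if_neg h2.2.1]; exact h2.1.symm))

theorem mid_cr (hD : Dn σ a b D) (h : Mid σ a b D H) (h' : Mid σ a b D H') (n : H ≠ H') :
    Cr σ H H' := by
  by_contra nc
  have key : ∀ H H' x y2 y3 y4, H ≠ H' → ¬Cr σ H H' → Mid σ a b D H → Cr σ H x → Le σ a x y2 →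
      Lt σ a y2 y3 → Lt σ a y3 y4 → Cr σ H' y2 → In σ a b y3 ∧ D y3 ∧ Cr σ H' y3 →
      In σ a b y4 ∧ D y4 ∧ Cr σ H' y4 → False := fun H H' x y2 y3 y4 n nc h c l l2 l3 c2 c3 c4 => by
    obtain ⟨m1, m2, -, -, k1, k2, -, -, l', -⟩ := h.2
    have := W.cmpD hD l3 l' c3.1 c4.1 k1.1 k2.1 c4.2.1 k1.2.1
    exact W.sq n nc l2 (c.cvx k2.2.2 l (W.lt_le l2 this).le) (c.cvx k2.2.2 (W.le_lt l l2).le this)
      c2 c3.2.2
  obtain ⟨x1, x2, x3, x4, h1, h2, h3, h4, l1, l2, l3⟩ := h.1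
  obtain ⟨y1, y2, y3, y4, k1, k2, k3, k4, j1, j2, j3⟩ := h'.1
  by_cases e : Le σ a y1 x2
  · exact key H' H y1 x2 x3 x4 n.symm (fun k => nc k.symm) h' k1.2.2 e l2 l3 h2.2.2 h3 h4
  · exact key H H' x1 y2 y3 y4 n nc h h1.2.2 (W.cmp l1 j1 h1.1 h2.1 k1.1 k2.1 e) j2 j3 k2.2.2 k3 k4

theorem mid_fin (hD : Dn σ a b D) : {H | Mid σ a b D H}.Finite := by
  by_contra n
  obtain ⟨T, h1, h2⟩ := Set.Infinite.exists_subset_card_eq n (d + 1)
  have := W.dim T fun H k K k' e => W.mid_cr hD (h1 k) (h1 k') e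
  omega

/-- the canonical vertex of a cut -/
theorem exists_xv (hD : Dn σ a b D) : ∃ x, ∀ H, σ H x = tau σ a b D H := by
  refine W.ult _ (fun H K => ?_) a (((W.fin a b).union (W.mid_fin hD)).subset fun H h => ?_)
  · unfold tau
    split_ifs with h k k
    · by_cases e : H = K
      · obtain ⟨x, -, -, -, h1, -⟩ := h.1
        obtain ⟨z, z1, -⟩ := h1.2.2 true true
        exact ⟨z, z1, e ▸ z1⟩
      · exact W.mid_cr hD h k e _ _
    · exact W.mid_adj hD h (fun e : H = K => k (e ▸ h)) _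
    · exact (W.mid_adj hD k (fun e : K = H => h (e ▸ k)) _).imp fun _ h => h.symm
    · exact W.c0 hD H K
  · by_contra n
    simp only [Set.mem_union, Set.mem_ofPred_eq, not_or, not_not] at n
    refine h ?_
    rw [tau, if_neg n.2, t0]
    split_ifs
    exacts [n.1.symm, rfl]

end WS

end Crest.Agent.N233.Ou
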