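import Mathlib

/-!
# Row 233 (helper95): the abstract Delzant collapse

`G` acts on a locally finite oriented graph `(V, E)` with a bicombing `q` whose triangle defect has
bounded support.  `J` acts freely on a connected two-complex `K` with `H¹_c(K) = 0`.  Then, up to finite
index and conjugation, there are only finitely many images of injective homomorphisms `J → G`.
-/

set_option autoImplicit false
open Set

noncomputable section

namespace Crest.Agent.N233.Ou

/-! ### neighbourhoods in a graph -/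

/-- `v` is within `k` steps of `u` -/
def nb {V : Type*} (r : V → V → Prop) : ℕ → V → V → Prop
  | 0, u, v => u = v
  | k + 1, u, v => ∃ w, nb r k u w ∧ (w = v ∨ r w v)

section nb
variable {V : Type*} {r : V → V → Prop}

theorem nb_refl (k : ℕ) (u : V) : nb r k u u := by
  induction k with
  | zero => rfl
  | succ k ih => exact ⟨u, ih, .inl rfl⟩

theorem nb.add {k l : ℕ} {u v w : V} (h : nb r k u v) (h' : nb r l v w) : nb r (k + l) u w := by
  induction l generalizing w with
  | zero => obtain rfl : v = w := h'; exact h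
  | succ l ih => obtain ⟨x, hx, hw⟩ := h'; exact ⟨x, ih hx, hw⟩

theorem nb.le {k l : ℕ} {u v : V} (h : nb r k u v) (hl : k ≤ l) : nb r l u v := by
  obtain ⟨d, rfl⟩ := Nat.exists_eq_add_of_le hl
  exact h.add (nb_refl d v)

theorem nb.symm (hr : ∀ a b, r a b → r b a) {k : ℕ} {u v : V} (h : nb r k u v) : nb r k v u := by
  induction k generalizing v with
  | zero => exact Eq.symm h
  | succ k ih =>
    obtain ⟨w, hw, hv⟩ := h
    have h1 : nb r 1 v w := ⟨v, rfl, hv.elim (fun e => .inl e.symm) fun e => .inr (hr _ _ e)⟩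
    have := h1.add (ih hw)
    rwa [Nat.add_comm] at this

theorem nb.map {V' : Type*} {r' : V' → V' → Prop} (g : V → V')
    (hg : ∀ a b, r a b → r' (g a) (g b)) {k : ℕ} {u v : V} (h : nb r k u v) :
    nb r' k (g u) (g v) := by
  induction k generalizing v with
  | zero => exact congrArg g h
  | succ k ih =>
    obtain ⟨w, hw, hv⟩ := h
    exact ⟨g w, ih hw, hv.elim (fun e => .inl (congrArg g e)) fun e => .inr (hg _ _ e)⟩

theorem nb_finite (hl : ∀ u, {v | r u v}.Finite) (k : ℕ) (u : V) : {v | nb r k u v}.Finite := by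
  induction k with
  | zero => exact (finite_singleton u).subset fun v hv => Eq.symm hv
  | succ k ih =>
    refine (ih.biUnion fun w _ => (hl w).insert w).subset ?_
    rintro v ⟨w, hw, hv⟩
    exact mem_biUnion hw (hv.elim (fun e => .inl e.symm) .inr)

end nb

theorem rtg_symm {V : Type*} {r : V → V → Prop} (hs : ∀ a b, r a b → r b a) {u v : V}
    (h : Relation.ReflTransGen r u v) : Relation.ReflTransGen r v u := by
  induction h with
  | refl => exact .refl
  | tail _ h ih => exact .head (hs _ _ h) ih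

/-- a monotone sequence of subsets of a finite set pauses early -/
theorem exists_pause {α : Type*} (R : Finset α) (O : ℕ → Set α) (hm : ∀ k, O k ⊆ O (k + 1))
    (hR : ∀ k, O k ⊆ R) : ∃ k ≤ R.card, O (k + 1) ⊆ O k := by
  by_contra h
  push Not at h
  have key : ∀ k ≤ R.card + 1, k ≤ (O k).ncard := by
    intro k
    induction k with
    | zero => simp
    | succ k ih =>
      intro hk
      have h1 : O k ⊂ O (k + 1) := ⟨hm k, h k (by omega)⟩
      have := ncard_lt_ncard h1 (R.finite_toSet.subset (hR _))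
      have := ih (by omega)
      omega
  have h1 := key _ le_rfl
  have h2 := ncard_le_ncard (hR (R.card + 1)) R.finite_toSet
  rw [ncard_coe_finset] at h2
  omega

/-- generation by short elements: `r` is an invariant graph whose non-isolated vertices lie in the
orbits of `R`; the elements that keep the component of `v` are products of short elements -/
theorem gen_short {J V : Type*} [Group J] [MulAction J V] {r : V → V → Prop}
    (hs : ∀ a b, r a b → r b a) (hi : ∀ (j : J) a b, r a b → r (j • a) (j • b)) (R : Finset V)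
    (hR : ∀ a b, r a b → ∃ j : J, ∃ x ∈ R, b = j • x) (v : V) (j : J)
    (hj : Relation.ReflTransGen r v (j • v)) :
    j ∈ Subgroup.closure {i : J | nb r (2 * R.card + 1) v (i • v)} := by
  obtain ⟨k, hk, hO⟩ := exists_pause R (fun k => {x | x ∈ R ∧ ∃ i : J, nb r k v (i • x)})
    (fun k x hx => ⟨hx.1, hx.2.imp fun i hi => hi.le (Nat.le_succ k)⟩) fun k x hx => hx.1
  set H := Subgroup.closure {i : J | nb r (2 * R.card + 1) v (i • v)}
  have key : ∀ w, Relation.ReflTransGen r v w → ∃ h ∈ H, ∃ u, nb r k v u ∧ w = h • u := by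
    intro w hw
    induction hw with
    | refl => exact ⟨1, H.one_mem, v, nb_refl _ _, (one_smul _ _).symm⟩
    | @tail w w' _ hw ih =>
      obtain ⟨h, hh, u, hu, rfl⟩ := ih
      have h1 : r u (h⁻¹ • w') := by simpa using hi h⁻¹ _ _ hw
      obtain ⟨i, x, hx, e⟩ := hR _ _ h1
      have h2 : nb r (k + 1) v (i • x) := ⟨u, hu, .inr (e ▸ h1)⟩
      obtain ⟨-, i', hi'⟩ := hO ⟨hx, i, h2⟩
      have h3 := (hi'.symm hs).map (fun y => (i * i'⁻¹) • y) (hi _)
      simp only [mul_smul, inv_smul_smul] at h3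
      have h4 : i * i'⁻¹ ∈ H := Subgroup.subset_closure (by
        have := (h2.add h3).le (l := 2 * R.card + 1) (by omega)
        simpa [mul_smul] using this)
      refine ⟨h * (i * i'⁻¹), H.mul_mem hh h4, i' • x, hi', ?_⟩
      simp only [mul_smul, inv_smul_smul]
      rw [← e, smul_inv_smul]
  obtain ⟨h, hh, u, hu, e⟩ := key _ hj
  have h5 : h⁻¹ * j ∈ H := Subgroup.subset_closure (by
    have : (h⁻¹ * j) • v = u := by rw [mul_smul, e, inv_smul_smul]
    simpa [this] using hu.le (l := 2 * R.card + 1) (by omega))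
  simpa using H.mul_mem hh h5

/-! ### the two structures -/

/-- boundary of a one-chain -/
def bd {V E : Type*} (src tgt : E → V) (x : E →₀ ℤ) : V →₀ ℤ :=
  Finsupp.mapDomain tgt x - Finsupp.mapDomain src x

/-- a cocompact proper action on a locally finite oriented graph with a bicombing `q` of bounded
triangle defect.  (`m = 1` for an invariant orientation, `m = 2` for antisymmetric chains on the
set of directed edges.) -/
structure Bic (G : Type*) {V E : Type*} [Group G] [MulAction G V] [MulAction G E]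
    (src tgt : E → V) (q : V → V → E →₀ ℤ) (m : ℤ) (C : ℕ) : Prop where
  src_smul : ∀ (g : G) e, src (g • e) = g • src e
  tgt_smul : ∀ (g : G) e, tgt (g • e) = g • tgt e
  lf : ∀ v, {e | src e = v ∨ tgt e = v}.Finite
  cof : ∃ B : Set V, B.Finite ∧ ∀ v, ∃ g : G, g • v ∈ B
  st : ∀ v : V, {g : G | g • v = v}.Finite
  ne : Nonempty V
  m0 : m ≠ 0
  bd_q : ∀ a b, bd src tgt (q a b) = Finsupp.single b m - Finsupp.single a m
  q_smul : ∀ (g : G) a b e, q (g • a) (g • b) (g • e) = q a b e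
  df : ∀ a b c, (q a b + q b c - q a c).support.card ≤ C

/-- a free cocompact action on a connected two-complex (edges `Ed`, triangles `Tr`) without compactly
supported first cohomology -/
structure OE (J : Type*) {K : Type*} [Group J] [MulAction J K] (Ed : K → K → Prop)
    (Tr : K → K → K → Prop) : Prop where
  inf : Infinite K
  free : ∀ (j : J) (a : K), j • a = a → j = 1
  ed_smul : ∀ (j : J) a b, Ed a b → Ed (j • a) (j • b)
  tr_smul : ∀ (j : J) a b c, Tr a b c → Tr (j • a) (j • b) (j • c)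
  ed_cof : ∃ B : Set (K × K), B.Finite ∧ ∀ a b, Ed a b → ∃ j : J, (j • a, j • b) ∈ B
  tr_cof : ∃ B : Set (K × K × K), B.Finite ∧ ∀ a b c, Tr a b c → ∃ j : J, (j • a, j • b, j • c) ∈ B
  conn : ∀ a b, Relation.EqvGen Ed a b
  h1 : ∀ c : K → K → ℤ, (∀ a b d, Tr a b d → c a b + c b d = c a d) →
    {p : K × K | Ed p.1 p.2 ∧ c p.1 p.2 ≠ 0}.Finite →
      ∃ ψ : K →₀ ℤ, ∀ a b, Ed a b → c a b = ψ b - ψ a

variable {G V E J K : Type*} [Group G] [MulAction G V] [MulAction G E] [Group J] [MulAction J K]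
  {src tgt : E → V} {q : V → V → E →₀ ℤ} {m : ℤ} {C : ℕ} {Ed : K → K → Prop}
  {Tr : K → K → K → Prop}

theorem finite_tr {X : Type*} [MulAction G X] {x : X} (h : {g : G | g • x = x}.Finite) (y : X) :
    {g : G | g • x = y}.Finite := by
  rcases ({g : G | g • x = y}).eq_empty_or_nonempty with e | ⟨g, hg⟩
  · rw [e]; exact finite_empty
  · refine (h.image fun k => g * k).subset fun k hk => ⟨g⁻¹ * k, ?_, by simp⟩
    have hg : g • x = y := hg
    have hk : k • x = y := hk
    show (g⁻¹ * k) • x = x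
    rw [mul_smul, hk, ← hg, inv_smul_smul]

theorem Bic.st_e (B : Bic G src tgt q m C) (e e' : E) : {g : G | g • e = e'}.Finite :=
  finite_tr ((B.st (src e)).subset fun g hg => by
    have hg : g • e = e := hg
    show g • src e = src e
    rw [← B.src_smul, hg]) e'

theorem OE.const (O : OE J Ed Tr) {X : Type*} {ψ : K → X} (h : ∀ a b, Ed a b → ψ a = ψ b) (a b : K) :
    ψ a = ψ b := by
  induction O.conn a b with
  | rel a b hab => exact h a b hab
  | refl => rfl
  | symm _ _ _ ih => exact ih.symm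
  | trans _ _ _ _ _ i1 i2 => exact i1.trans i2

theorem OE.uniq (O : OE J Ed Tr) {ψ ψ' : K →₀ ℤ} (h : ∀ a b, Ed a b → ψ b - ψ a = ψ' b - ψ' a) :
    ψ = ψ' := by
  haveI := O.inf
  obtain ⟨a, ha⟩ := Infinite.exists_notMem_finset (ψ - ψ').support
  have ha : ψ a - ψ' a = 0 := by simpa using ha
  ext b
  have := O.const (ψ := fun a => ψ a - ψ' a) (fun a b hab => by linarith [h a b hab]) a b
  linarith

theorem exists_eqv (hf : ∀ (j : J) (a : K), j • a = a → j = 1) (φ : J →* G) (v : V) :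
    ∃ f : K → V, ∀ (j : J) a, f (j • a) = φ j • f a := by
  have h : ∀ a : K, ∃ j : J, j • (Quotient.mk (MulAction.orbitRel J K) a).out = a := fun a =>
    MulAction.mem_orbit_symm.1 (Quotient.mk_out (s := MulAction.orbitRel J K) a)
  choose t ht using h
  refine ⟨fun a => φ (t a) • v, fun j a => ?_⟩
  have e : (Quotient.mk (MulAction.orbitRel J K) (j • a)) = Quotient.mk _ a :=
    Quotient.sound ⟨j, rfl⟩
  have h1 := ht (j • a)
  rw [e] at h1
  have h2 : (t (j • a))⁻¹ * (j * t a) = 1 := hf _ (Quotient.mk (MulAction.orbitRel J K) a).out (by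
    rw [mul_smul, mul_smul, ht, inv_smul_eq_iff, h1])
  have h3 : t (j • a) = j * t a := by rwa [inv_mul_eq_one] at h2
  show φ (t (j • a)) • v = _
  rw [h3, map_mul, mul_smul]

theorem bd_add (x y : E →₀ ℤ) : bd src tgt (x + y) = bd src tgt x + bd src tgt y := by
  simp only [bd, Finsupp.mapDomain_add]; abel

theorem bd_sub (x y : E →₀ ℤ) : bd src tgt (x - y) = bd src tgt x - bd src tgt y := by
  have := bd_add (src := src) (tgt := tgt) (x - y) y
  rw [sub_add_cancel] at this
  rw [this]; abel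

theorem map_bd {X : Type*} (cl : V → X) (x : E →₀ ℤ) :
    Finsupp.mapDomain cl (bd src tgt x) = bd (cl ∘ src) (cl ∘ tgt) x := by
  simp only [bd, Finsupp.mapDomain_comp]
  exact map_sub (Finsupp.mapDomain.addMonoidHom cl) _ _

theorem bd_eq_zero {x : E →₀ ℤ} (h : ∀ e ∈ x.support, src e = tgt e) : bd src tgt x = 0 := by
  rw [bd, sub_eq_zero]
  exact Finsupp.mapDomain_congr fun e he => (h e he).symm

/-- the collapse: an invariant zero-cycle of non-zero augmentation modulo the small edges `S` -/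
theorem collapse (B : Bic G src tgt q m C) (O : OE J Ed Tr) (φ : J →* G)
    (hφ : Function.Injective φ) {f : K → V} (hf : ∀ (j : J) a, f (j • a) = φ j • f a) {S : Set E}
    (hS : ∀ (j : J) e, φ j • e ∈ S ↔ e ∈ S)
    (hT : ∀ a b d, Tr a b d → ∀ e, e ∉ S → q (f a) (f b) e + q (f b) (f d) e = q (f a) (f d) e) :
    ∃ y : K → E →₀ ℤ, (∀ (j : J) a, y (j • a) = Finsupp.mapDomain (φ j • ·) (y a)) ∧
      ∀ a b, Ed a b → ∀ e ∈ (q (f a) (f b) - (y b - y a)).support, e ∈ S := by
  classical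
  obtain ⟨B1, hB1, hE⟩ := O.ed_cof
  have hq : ∀ (j : J) a b e, q (f (j • a)) (f (j • b)) (φ j • e) = q (f a) (f b) e := fun j a b e => by
    rw [hf, hf, B.q_smul]
  have h1 : ∀ e, ∃ ψ : K →₀ ℤ, (e ∈ S → ψ = 0) ∧
      (e ∉ S → ∀ a b, Ed a b → q (f a) (f b) e = ψ b - ψ a) := by
    intro e
    by_cases he : e ∈ S
    · exact ⟨0, fun _ => rfl, fun h => (h he).elim⟩
    obtain ⟨ψ, hψ⟩ := O.h1 (fun a b => q (f a) (f b) e) (fun a b d h => hT a b d h e he) (by
      refine (hB1.biUnion (t := fun p => ⋃ e' ∈ ((q (f p.1) (f p.2)).support : Set E),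
        (fun j : J => (j⁻¹ • p.1, j⁻¹ • p.2)) '' (φ ⁻¹' {g | g • e = e'})) fun p _ =>
          (Finset.finite_toSet _).biUnion fun e' _ =>
            ((B.st_e e e').preimage hφ.injOn).image _).subset ?_
      rintro ⟨a, b⟩ ⟨hab, hc⟩
      obtain ⟨j, hj⟩ := hE a b hab
      refine mem_biUnion hj (mem_biUnion (x := φ j • e) ?_ ⟨j, rfl, by simp⟩)
      simpa [hq] using hc)
    exact ⟨ψ, fun h => (he h).elim, fun _ => hψ⟩
  choose ψ h0 hψ using h1
  have he : ∀ (j : J) e a, ψ (φ j • e) (j • a) = ψ e a := by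
    intro j e a
    by_cases h : e ∈ S
    · rw [h0 e h, h0 _ ((hS j e).2 h)]; rfl
    have : ψ e = Finsupp.comapDomain (j • ·) (ψ (φ j • e)) (MulAction.injective j).injOn :=
      O.uniq fun a b hab => by
        rw [← hψ e h a b hab, Finsupp.comapDomain_apply, Finsupp.comapDomain_apply,
          ← hψ _ (mt (hS j e).1 h) _ _ (O.ed_smul j a b hab), hq]
    rw [this, Finsupp.comapDomain_apply]
  have hfin : ∀ a, (Function.support fun e => ψ e a).Finite := by
    intro a
    refine (hB1.biUnion (t := fun p => ⋃ e' ∈ ((q (f p.1) (f p.2)).support : Set E),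
      ⋃ b ∈ ((ψ e').support : Set K), (fun j : J => φ j⁻¹ • e') '' {j | j • a = b}) fun p _ =>
        (Finset.finite_toSet _).biUnion fun e' _ => (Finset.finite_toSet _).biUnion fun b _ =>
          (finite_tr ((finite_singleton 1).subset fun j hj => O.free j a hj) b).image _).subset ?_
    intro e hea
    have hea : ψ e a ≠ 0 := hea
    have h : e ∉ S := fun h => hea (by rw [h0 e h]; rfl)
    have : ∃ b d, Ed b d ∧ q (f b) (f d) e ≠ 0 := by
      by_contra hn
      push Not at hn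
      have : ψ e = 0 := O.uniq fun b d hbd => by rw [← hψ e h b d hbd, hn b d hbd]; simp
      exact hea (by rw [this]; rfl)
    obtain ⟨b, d, hbd, hc⟩ := this
    obtain ⟨j, hj⟩ := hE b d hbd
    refine mem_biUnion hj (mem_biUnion (x := φ j • e) (by simpa [hq] using hc)
      (mem_biUnion (x := j • a) (by simpa [he] using hea) ⟨j, rfl, by simp⟩))
  refine ⟨fun a => Finsupp.ofSupportFinite _ (hfin a), fun j a => ?_, fun a b hab e h => ?_⟩
  · ext e
    obtain ⟨e, rfl⟩ := MulAction.surjective (φ j) e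
    rw [Finsupp.mapDomain_apply (MulAction.injective _)]
    exact he j e a
  · by_contra hn
    refine Finsupp.mem_support_iff.1 h ?_
    have := hψ e hn a b hab
    simp only [Finsupp.coe_sub, Pi.sub_apply, Finsupp.ofSupportFinite_coe, this, sub_self]

/-- **Delzant.**  Up to finite index and conjugation `J` has finitely many images in `G`. -/
theorem delzant (B : Bic G src tgt q m C) (O : OE J Ed Tr) :
    ∃ A : Set (Subgroup G), A.Finite ∧ ∀ φ : J →* G, Function.Injective φ →
      ∃ H : Subgroup J, H.FiniteIndex ∧ ∃ g : G, (H.map φ).map (MulAut.conj g).toMonoidHom ∈ A := by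
  classical
  obtain ⟨B0, hB0, hV⟩ := B.cof
  obtain ⟨T0, hT0, hT⟩ := O.tr_cof
  let r0 : V → V → Prop := fun u v => ∃ e, (src e = u ∧ tgt e = v) ∨ (src e = v ∧ tgt e = u)
  have hl : ∀ u, {v | r0 u v}.Finite := fun u =>
    (((B.lf u).image src).union ((B.lf u).image tgt)).subset (by
      rintro v ⟨e, h | h⟩
      exacts [.inr ⟨e, .inl h.1, h.2⟩, .inl ⟨e, .inr h.2, h.1⟩])
  let M := 2 * (hT0.toFinset.card * C)
  let X : Set G := ⋃ v ∈ B0, ⋃ w ∈ {w | nb r0 (2 * M + 1) v w}, {g | g • v = w}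
  have hX : X.Finite := hB0.biUnion fun v _ => (nb_finite hl _ v).biUnion fun w _ =>
    finite_tr (B.st v) w
  refine ⟨Subgroup.closure '' {Y | Y ⊆ X}, hX.finite_subsets.image _, fun φ hφ => ?_⟩
  obtain ⟨v1⟩ := B.ne
  obtain ⟨f, hf⟩ := exists_eqv O.free φ v1
  let D : K → K → K → E →₀ ℤ := fun a b d => q (f a) (f b) + q (f b) (f d) - q (f a) (f d)
  have hD : ∀ (j : J) a b d e, D (j • a) (j • b) (j • d) (φ j • e) = D a b d e := fun j a b d e => by
    simp only [D, hf, Finsupp.coe_sub, Finsupp.coe_add, Pi.sub_apply, Pi.add_apply, B.q_smul]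
  let S : Set E := {e | ∃ a b d, Tr a b d ∧ D a b d e ≠ 0}
  have hS1 : ∀ (j : J) e, e ∈ S → φ j • e ∈ S := by
    rintro j e ⟨a, b, d, h, h'⟩
    exact ⟨_, _, _, O.tr_smul j a b d h, by rwa [hD]⟩
  have hS : ∀ (j : J) e, φ j • e ∈ S ↔ e ∈ S := fun j e =>
    ⟨fun h => by simpa using hS1 j⁻¹ _ h, hS1 j e⟩
  obtain ⟨y, hy, hy'⟩ := collapse B O φ hφ hf hS fun a b d h e he => by
    have : D a b d e = 0 := by_contra fun hn => he ⟨a, b, d, h, hn⟩
    simp only [D, Finsupp.coe_sub, Finsupp.coe_add, Pi.sub_apply, Pi.add_apply] at this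
    linarith
  letI : MulAction J V := MulAction.compHom V φ
  have hsm : ∀ (j : J) (v : V), j • v = φ j • v := fun _ _ => rfl
  let r : V → V → Prop := fun u v => ∃ e ∈ S, (src e = u ∧ tgt e = v) ∨ (src e = v ∧ tgt e = u)
  have rs : ∀ a b, r a b → r b a := fun a b ⟨e, he, h⟩ => ⟨e, he, h.symm⟩
  have ri : ∀ (j : J) a b, r a b → r (j • a) (j • b) := by
    rintro j a b ⟨e, he, h⟩
    refine ⟨φ j • e, hS1 j e he, ?_⟩
    rw [B.src_smul, B.tgt_smul, hsm, hsm]
    exact h.imp (fun h => ⟨by rw [h.1], by rw [h.2]⟩) fun h => ⟨by rw [h.1], by rw [h.2]⟩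
  let S0 : Finset E := hT0.toFinset.biUnion fun t => (D t.1 t.2.1 t.2.2).support
  have hS0 : S0.card ≤ hT0.toFinset.card * C :=
    Finset.card_biUnion_le_card_mul _ _ _ fun t _ => B.df _ _ _
  let R : Finset V := S0.image src ∪ S0.image tgt
  have hRc : R.card ≤ M := (Finset.card_union_le _ _).trans (by
    have := Finset.card_image_le (s := S0) (f := src)
    have := Finset.card_image_le (s := S0) (f := tgt)
    omega)
  have hR : ∀ a b, r a b → ∃ j : J, ∃ x ∈ R, b = j • x := by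
    rintro u v ⟨e, ⟨a, b, d, h, h'⟩, he⟩
    obtain ⟨j, hj⟩ := hT a b d h
    have h0 : φ j • e ∈ S0 := Finset.mem_biUnion.2 ⟨_, hT0.mem_toFinset.2 hj, by
      rw [Finsupp.mem_support_iff]; rwa [hD]⟩
    refine ⟨j⁻¹, j • v, ?_, by simp⟩
    rcases he with he | he
    · exact Finset.mem_union_right _ (Finset.mem_image.2 ⟨_, h0, by rw [B.tgt_smul, he.2, hsm]⟩)
    · exact Finset.mem_union_left _ (Finset.mem_image.2 ⟨_, h0, by rw [B.src_smul, he.1, hsm]⟩)
  -- components
  let cl : V → Set V := fun v => {w | Relation.ReflTransGen r v w}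
  have cl_eq : ∀ u v, cl u = cl v ↔ Relation.ReflTransGen r u v := fun u v =>
    ⟨fun h => by
      have : v ∈ cl v := Relation.ReflTransGen.refl
      rwa [← h] at this, fun h => Set.ext fun w =>
      ⟨fun hw => (rtg_symm rs h).trans hw, fun hw => h.trans hw⟩⟩
  have cl_smul : ∀ (j : J) u v, cl (j • u) = cl (j • v) ↔ cl u = cl v := by
    have : ∀ (j : J) u v, cl u = cl v → cl (j • u) = cl (j • v) := fun j u v h =>
      (cl_eq _ _).2 (((cl_eq _ _).1 h).lift (j • ·) (ri j))
    exact fun j u v => ⟨fun h => by simpa using this j⁻¹ _ _ h, this j u v⟩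
  let z : K → V →₀ ℤ := fun a => Finsupp.single (f a) m - bd src tgt (y a)
  have z1 : ∀ (j : J) a, z (j • a) = Finsupp.mapDomain (j • ·) (z a) := fun j a => by
    have e1 : (fun v : V => j • v) ∘ src = src ∘ (φ j • ·) := funext fun e => (B.src_smul _ e).symm
    have e2 : (fun v : V => j • v) ∘ tgt = tgt ∘ (φ j • ·) := funext fun e => (B.tgt_smul _ e).symm
    have : Finsupp.mapDomain (j • ·) (z a) = Finsupp.mapDomain (j • ·) (Finsupp.single (f a) m) -
        Finsupp.mapDomain (j • ·) (bd src tgt (y a)) := map_sub (Finsupp.mapDomain.addMonoidHom _) _ _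
    rw [this, map_bd, e1, e2, Finsupp.mapDomain_single]
    simp only [z, hy, hf, bd, Finsupp.mapDomain_comp, hsm]
  have z2 : ∀ a b, Finsupp.mapDomain cl (z a) = Finsupp.mapDomain cl (z b) :=
    O.const fun a b hab => by
      have : z b = z a + bd src tgt (q (f a) (f b) - (y b - y a)) := by
        simp only [z, bd_sub, B.bd_q]; abel
      rw [this, Finsupp.mapDomain_add, map_bd, bd_eq_zero, add_zero]
      exact fun e he => (cl_eq _ _).2 (.single ⟨e, hy' a b hab e he, .inl ⟨rfl, rfl⟩⟩)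
  haveI := O.inf
  obtain ⟨a⟩ : Nonempty K := inferInstance
  set Z := Finsupp.mapDomain cl (z a) with hZ
  have Z0 : Z ≠ 0 := fun h => B.m0 (by
    have h1 : Finsupp.mapDomain (fun _ => ()) Z = Finsupp.single () m := by
      rw [hZ, ← Finsupp.mapDomain_comp]
      have : Finsupp.mapDomain ((fun _ => ()) ∘ cl) (z a) =
          Finsupp.mapDomain ((fun _ => ()) ∘ cl) (Finsupp.single (f a) m) -
            Finsupp.mapDomain ((fun _ => ()) ∘ cl) (bd src tgt (y a)) :=
        map_sub (Finsupp.mapDomain.addMonoidHom _) _ _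
      rw [this, map_bd, bd_eq_zero fun _ _ => Subsingleton.elim _ _, Finsupp.mapDomain_single,
        sub_zero]
    rw [h, Finsupp.mapDomain_zero] at h1
    exact Finsupp.single_eq_zero.1 h1.symm)
  have Zi : ∀ (j : J) v, Z (cl (j • v)) = Z (cl v) := fun j v => by
    conv_lhs => rw [hZ, z2 a (j • a), z1, ← Finsupp.mapDomain_comp]
    rw [hZ]
    simp only [Finsupp.mapDomain, Finsupp.sum_apply, Function.comp, Finsupp.single_apply, cl_smul]
  obtain ⟨c, hc⟩ := Finsupp.support_nonempty_iff.2 Z0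
  obtain ⟨v, -, rfl⟩ := Finset.mem_image.1 (Finsupp.mapDomain_support hc)
  let H : Subgroup J := Subgroup.closure {i : J | nb r (2 * R.card + 1) v (i • v)}
  have hH : ∀ j : J, cl (j • v) = cl v → j ∈ H := fun j h =>
    gen_short rs ri R hR v j ((cl_eq _ _).1 h.symm)
  obtain ⟨g, hg⟩ := hV v
  refine ⟨H, ?_, g, (fun i => g * φ i * g⁻¹) '' {i : J | nb r (2 * R.card + 1) v (i • v)}, ?_, ?_⟩
  · haveI : Finite (J ⧸ H) := by
      refine Finite.of_injective (β := Z.support) (fun x => ⟨cl (x.out • v), ?_⟩) fun x x' h => ?_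
      · rw [Finsupp.mem_support_iff, Zi]; exact Finsupp.mem_support_iff.1 hc
      · have h : cl (x.out • v) = cl (x'.out • v) := congrArg Subtype.val h
        rw [← x.out_eq', ← x'.out_eq', QuotientGroup.eq]
        refine hH _ ?_
        rw [← cl_smul x.out, mul_smul, smul_inv_smul, h]
    exact Subgroup.finiteIndex_of_finite_quotient
  · rintro _ ⟨i, hi, rfl⟩
    refine mem_biUnion hg (mem_biUnion (x := g • φ i • v) ?_ (by simp [mul_smul]))
    refine (nb.map (r' := r0) (g • ·) ?_ hi).le (by omega)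
    rintro u w ⟨e, -, h⟩
    refine ⟨g • e, ?_⟩
    rw [B.src_smul, B.tgt_smul]
    exact h.imp (fun h => ⟨by rw [h.1], by rw [h.2]⟩) fun h => ⟨by rw [h.1], by rw [h.2]⟩
  · simp only [H, MonoidHom.map_closure, image_image]
    rfl

/-- `α J` and `g J` are at finite Hausdorff distance -/
def Cls (α : G → G) (J : Subgroup G) (g : G) : Prop :=
  ∃ T : Set G, T.Finite ∧ (∀ x ∈ J, ∃ y ∈ J, ∃ t ∈ T, α x = g * y * t) ∧
    ∀ y ∈ J, ∃ x ∈ J, ∃ t ∈ T, g * y = α x * t

theorem exists_reps (H : Subgroup J) [H.FiniteIndex] :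
    ∃ T : Set J, T.Finite ∧ ∀ x, ∃ h ∈ H, ∃ t ∈ T, x = h * t := by
  refine ⟨range fun c : J ⧸ H => c.out⁻¹, finite_range _, fun x => ?_⟩
  refine ⟨x * ((x⁻¹ : J) : J ⧸ H).out, ?_, _, ⟨((x⁻¹ : J) : J ⧸ H), rfl⟩, by simp⟩
  simpa using QuotientGroup.eq.1 (QuotientGroup.out_eq' ((x⁻¹ : J) : J ⧸ H)).symm

/-- **Pigeonhole.**  A power of every automorphism maps each `L i` to a subgroup commensurable with a
conjugate of `L i`. -/
theorem exists_pow_comm {ι : Type*} [Finite ι] (L : ι → Subgroup G)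
    (hL : ∀ i, ∃ A : Set (Subgroup G), A.Finite ∧ ∀ φ : L i →* G, Function.Injective φ →
      ∃ H : Subgroup (L i), H.FiniteIndex ∧ ∃ g : G, (H.map φ).map (MulAut.conj g).toMonoidHom ∈ A)
    (α : MulAut G) : ∃ n, 0 < n ∧ ∀ i, ∃ (g : G) (H H' : Subgroup (L i)), H.FiniteIndex ∧
      H'.FiniteIndex ∧ (∀ x ∈ H, ∃ y ∈ H', (α ^ n) x = g * y * g⁻¹) ∧
        ∀ y ∈ H', ∃ x ∈ H, (α ^ n) x = g * y * g⁻¹ := by
  choose A hA h using hL
  have h' := fun (k : ℕ) i => h i ((α ^ k).toMonoidHom.comp (L i).subtype)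
    ((α ^ k).injective.comp Subtype.val_injective)
  choose H hH g hg using h'
  haveI := fun i => (hA i).to_subtype
  obtain ⟨k, l, hkl, e⟩ : ∃ k l : ℕ, k < l ∧
      (fun i => (⟨_, hg k i⟩ : A i)) = fun i => (⟨_, hg l i⟩ : A i) := by
    obtain ⟨k, l, hne, e⟩ := Finite.exists_ne_map_eq_of_infinite
      fun (k : ℕ) (i : ι) => (⟨_, hg k i⟩ : A i)
    rcases lt_or_gt_of_ne hne with h | h
    exacts [⟨k, l, h, e⟩, ⟨l, k, h, e.symm⟩]
  obtain ⟨n, rfl⟩ := Nat.exists_eq_add_of_lt hkl
  refine ⟨n + 1, n.succ_pos, fun i => ?_⟩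
  have e := congrArg Subtype.val (congrFun e i)
  simp only at e
  have key : ∀ x y : G, g (k + n + 1) i * (α ^ (k + n + 1)) x * (g (k + n + 1) i)⁻¹ =
      g k i * (α ^ k) y * (g k i)⁻¹ → (α ^ (n + 1)) x =
        (α ^ k).symm ((g (k + n + 1) i)⁻¹ * g k i) * y *
          ((α ^ k).symm ((g (k + n + 1) i)⁻¹ * g k i))⁻¹ := by
    intro x y h
    apply (α ^ k).injective
    rw [← MulAut.mul_apply, ← pow_add, ← add_assoc]
    simp only [map_mul, map_inv, MulEquiv.apply_symm_apply]
    rw [mul_inv_eq_iff_eq_mul, ← eq_inv_mul_iff_mul_eq] at h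
    rw [h]; group
  refine ⟨(α ^ k).symm ((g (k + n + 1) i)⁻¹ * g k i), H (k + n + 1) i, H k i, hH _ _, hH _ _,
    fun x hx => ?_, fun y hy => ?_⟩
  · obtain ⟨_, ⟨y, hy, rfl⟩, h⟩ := e.ge ⟨_, ⟨x, hx, rfl⟩, rfl⟩
    exact ⟨y, hy, key _ _ h.symm⟩
  · obtain ⟨_, ⟨x, hx, rfl⟩, h⟩ := e.le ⟨_, ⟨y, hy, rfl⟩, rfl⟩
    exact ⟨x, hx, key _ _ h⟩

/-- the coarse form -/
theorem exists_pow_cls {ι : Type*} [Finite ι] (L : ι → Subgroup G)
    (hL : ∀ i, ∃ A : Set (Subgroup G), A.Finite ∧ ∀ φ : L i →* G, Function.Injective φ →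
      ∃ H : Subgroup (L i), H.FiniteIndex ∧ ∃ g : G, (H.map φ).map (MulAut.conj g).toMonoidHom ∈ A)
    (α : MulAut G) : ∃ n, 0 < n ∧ ∀ i, ∃ g : G, Cls (α ^ n : MulAut G) (L i) g := by
  obtain ⟨n, hn, h⟩ := exists_pow_comm L hL α
  refine ⟨n, hn, fun i => ?_⟩
  obtain ⟨g, H, H', _, _, h1, h2⟩ := h i
  obtain ⟨T, hT, h3⟩ := exists_reps H
  obtain ⟨T', hT', h4⟩ := exists_reps H'
  refine ⟨g, (fun t : L i => g⁻¹ * (α ^ n) t) '' T ∪ (fun t : L i => g * t) '' T',
    (hT.image _).union (hT'.image _), fun x hx => ?_, fun y hy => ?_⟩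
  · obtain ⟨u, hu, t, ht, e⟩ := h3 ⟨x, hx⟩
    obtain ⟨y, -, hy⟩ := h1 u hu
    refine ⟨y, y.2, _, .inl ⟨t, ht, rfl⟩, ?_⟩
    have : x = u * t := congrArg Subtype.val e
    rw [this, map_mul, hy]; group
  · obtain ⟨u, hu, t, ht, e⟩ := h4 ⟨y, hy⟩
    obtain ⟨x, -, hx⟩ := h2 u hu
    refine ⟨x, x.2, _, .inr ⟨t, ht, rfl⟩, ?_⟩
    have : y = u * t := congrArg Subtype.val e
    rw [this, hx]; group

end Crest.Agent.N233.Ou

end
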