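import Crest.Agent.N233.Ou.Bi1
import Crest.Agent.N233.Ou.R2a

/-!
# Row 233 (helper51): the canonical bicombing of a median wall space without squares
-/

set_option autoImplicit false

noncomputable section

namespace Crest.Agent.N233.Ou

open Classical Finset

variable {ι P : Type*} {σ : ι → P → Bool} {d : ℕ} {a b c : P} {H K L H' K' : ι}

namespace WS

variable (W : WS σ d)

theorem dn (a b : P) (t : ℤ) : Dn σ a b fun H => W.pos a b H ≤ t :=
  fun _ _ i l k => (W.pos_lt i l).le.trans k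

/-- the canonical vertices -/
def X (a b : P) (t : ℤ) : P := (W.exists_xv (W.dn a b t)).choose

theorem X_spec (a b : P) (t : ℤ) (H : ι) : σ H (W.X a b t) = tau σ a b (fun H => W.pos a b H ≤ t) H :=
  (W.exists_xv (W.dn a b t)).choose_spec H

theorem X_lo {t : ℤ} (h : ∀ H, In σ a b H → t < W.pos a b H) : W.X a b t = a :=
  W.inj _ _ fun H => by
    rw [W.X_spec, tau, if_neg fun ⟨⟨x, _, _, _, k, _⟩, _⟩ => (h x k.1).not_ge k.2.1, t0]
    split_ifs with e
    exacts [by_contra fun n => (h H (Ne.symm n)).not_ge e, rfl]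

theorem X_hi {t : ℤ} (h : ∀ H, In σ a b H → W.pos a b H ≤ t) : W.X a b t = b :=
  W.inj _ _ fun H => by
    rw [W.X_spec, tau, if_neg fun ⟨_, x, _, _, _, k, _⟩ => k.2.1 (h x k.1), t0]
    split_ifs with e
    exacts [rfl, by_contra fun n => e (h H n)]

omit W in
theorem mid_congr {D D' : ι → Prop} (e : ∀ K, In σ a b K → (D K ↔ D' K)) (h : Mid σ a b D H) :
    Mid σ a b D' H :=
  ⟨h.1.mono fun x k => ⟨k.1, (e x k.1).1 k.2.1, k.2.2⟩,
    h.2.mono fun x k => ⟨k.1, fun j => k.2.1 ((e x k.1).2 j), k.2.2⟩⟩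

omit W in
theorem t0_congr {D D' : ι → Prop} (e : In σ a b H → (D H ↔ D' H)) : t0 σ a b D H = t0 σ a b D' H := by
  unfold t0
  by_cases i : In σ a b H
  · exact if_congr (e i) rfl rfl
  · rw [show σ H a = σ H b from not_not.1 i, ite_self, ite_self]

omit W in
theorem t0_rev {D D' : ι → Prop} (e : In σ a b H → (D H ↔ ¬D' H)) : t0 σ b a D H = t0 σ a b D' H := by
  unfold t0
  by_cases i : In σ a b H
  · rw [if_congr (e i) rfl rfl, ite_not]
  · rw [show σ H a = σ H b from not_not.1 i, ite_self, ite_self]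

theorem X_congr {s t : ℤ} (e : ∀ K, In σ a b K → (W.pos a b K ≤ s ↔ W.pos a b K ≤ t)) :
    W.X a b s = W.X a b t :=
  W.inj _ _ fun H => by
    rw [W.X_spec, W.X_spec, tau, tau]
    exact if_congr ⟨mid_congr e, mid_congr fun K k => (e K k).symm⟩ rfl (t0_congr (e H))

theorem X_rev (a b : P) (t : ℤ) : W.X b a t = W.X a b (-t - 1) :=
  W.inj _ _ fun H => by
    rw [W.X_spec, W.X_spec, tau, tau]
    refine if_congr ⟨fun h => h.rev fun K k => ?_, fun h => h.rev fun K k => ?_⟩ rfl
      (t0_rev fun i => ?_)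
    · rw [W.pos_rev k.symm]; omega
    · rw [W.pos_rev k]; omega
    · rw [W.pos_rev i]; omega

/-- number of walls in position `t` -/
def cnt (a b : P) (t : ℤ) : ℕ := #{H ∈ W.Sp a b | W.pos a b H = t}

theorem cnt_le (a b : P) (t : ℤ) : W.cnt a b t ≤ d :=
  W.cls_card (a := a) (b := b) _ t fun _ k => by simpa using k

theorem cnt_rev (a b : P) (t : ℤ) : W.cnt b a t = W.cnt a b (-t) := by
  unfold cnt
  rw [W.Sp_comm b a]
  refine congrArg _ (filter_congr fun K k => ?_)
  rw [W.pos_rev (W.mem_Sp.1 k)]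
  omega

theorem near (a b : P) (t : ℤ) : #(W.Sp (W.X a b (t - 1)) (W.X a b t)) ≤ 3 * d := by
  have h1 := W.dim (W.mid_fin (W.dn a b t)).toFinset fun H k K k' e =>
    W.mid_cr (W.dn a b t) (by simpa using k) (by simpa using k') e
  have h2 := W.dim (W.mid_fin (W.dn a b (t - 1))).toFinset fun H k K k' e =>
    W.mid_cr (W.dn a b (t - 1)) (by simpa using k) (by simpa using k') e
  have h3 := W.cnt_le a b t
  have h4 := card_union_le (W.mid_fin (W.dn a b t)).toFinset (W.mid_fin (W.dn a b (t - 1))).toFinset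
  refine (card_le_card (t := (W.mid_fin (W.dn a b t)).toFinset ∪
    (W.mid_fin (W.dn a b (t - 1))).toFinset ∪ {H ∈ W.Sp a b | W.pos a b H = t}) fun H h => ?_).trans
    ((card_union_le _ _).trans (by unfold cnt at h3; omega))
  by_contra n
  simp only [mem_union, Set.Finite.mem_toFinset, Set.mem_ofPred_eq, mem_filter, mem_Sp, not_or,
    not_and] at n
  refine W.mem_Sp.1 h ?_
  rw [W.X_spec, W.X_spec, tau, tau, if_neg n.1.1, if_neg n.1.2]
  exact t0_congr fun i => by have := n.2 i; omega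

/-- edges of the Rips graph -/
abbrev E : Type _ := {p : P × P // #(W.Sp p.1 p.2) ≤ 3 * d}

/-- the reversed edge -/
def rv (e : W.E) : W.E := ⟨(e.1.2, e.1.1), (congrArg card (W.Sp_comm _ _)).trans_le e.2⟩

/-- the antisymmetric chain of an edge -/
def ch (e : W.E) : W.E →₀ ℤ := Finsupp.single e 1 - Finsupp.single (W.rv e) 1

/-- the step at position `t` -/
def stp (a b : P) (t : ℤ) : W.E := ⟨(W.X a b (t - 1), W.X a b t), W.near a b t⟩

/-- the contribution of position `t` -/
def tm (a b : P) (t : ℤ) : W.E →₀ ℤ := (d.factorial / W.cnt a b t : ℕ) • W.ch (W.stp a b t)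

/-- **the bicombing** -/
def q (a b : P) : W.E →₀ ℤ := ∑ K ∈ W.Sp a b, W.tm a b (W.pos a b K)

theorem tm_rev (a b : P) (t : ℤ) : W.tm b a (-t) = -W.tm a b t := by
  have e : W.stp b a (-t) = W.rv (W.stp a b t) :=
    Subtype.ext (Prod.ext ((W.X_rev _ _ _).trans (congrArg (W.X a b) (by omega)))
      ((W.X_rev _ _ _).trans (congrArg (W.X a b) (by omega))))
  rw [tm, tm, cnt_rev, neg_neg, ← smul_neg, e, ch, ch, neg_sub]
  rfl

theorem tm_supp (a b : P) (t : ℤ) : #(W.tm a b t).support ≤ 2 := by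
  refine (card_le_card (t := {W.stp a b t, W.rv (W.stp a b t)}) fun e he => ?_).trans card_le_two
  by_contra n
  simp only [mem_insert, mem_singleton, not_or] at n
  refine Finsupp.mem_support_iff.1 he ?_
  rw [tm, ch, Finsupp.smul_apply, Finsupp.sub_apply, Finsupp.single_eq_of_ne n.1,
    Finsupp.single_eq_of_ne n.2, sub_self, smul_zero]

/-- the boundary -/
def bdh : (W.E →₀ ℤ) →+ (P →₀ ℤ) :=
  Finsupp.mapDomain.addMonoidHom (fun e : W.E => e.1.2) -
    Finsupp.mapDomain.addMonoidHom fun e : W.E => e.1.1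

theorem bdh_ch (e : W.E) : W.bdh (W.ch e) = Finsupp.single e.1.2 2 - Finsupp.single e.1.1 2 := by
  have h : ∀ x : P, (Finsupp.single x 2 : P →₀ ℤ) = Finsupp.single x 1 + Finsupp.single x 1 :=
    fun x => by rw [← Finsupp.single_add]; rfl
  simp only [ch, map_sub, bdh, AddMonoidHom.sub_apply, Finsupp.mapDomain.addMonoidHom_apply,
    Finsupp.mapDomain_single, rv, h]
  abel

theorem bdh_q (a b : P) :
    W.bdh (W.q a b) = Finsupp.single b (2 * d.factorial : ℤ) - Finsupp.single a (2 * d.factorial : ℤ) := by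
  set n := #(W.Sp a b)
  let F : ℕ → P →₀ ℤ := fun i => Finsupp.single (W.X a b ((i : ℤ) - n - 1)) (2 * d.factorial : ℤ)
  have h1 : ∀ K ∈ W.Sp a b, (W.pos a b K + n).toNat ∈ range (2 * n + 1) := fun K _ => by
    have := W.pos_abs a b K
    rw [mem_range]
    omega
  have h2 : ∀ i ∈ range (2 * n + 1), ∑ K ∈ W.Sp a b with (W.pos a b K + n).toNat = i,
      W.bdh (W.tm a b (W.pos a b K)) = F (i + 1) - F i := fun i _ => by
    have e : {K ∈ W.Sp a b | (W.pos a b K + n).toNat = i} = {K ∈ W.Sp a b | W.pos a b K = i - n} :=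
      filter_congr fun K _ => by have := W.pos_abs a b K; omega
    rw [e, sum_congr rfl fun K k => by rw [(mem_filter.1 k).2], sum_const, ← cnt]
    have e1 : ((i + 1 : ℕ) : ℤ) - n - 1 = i - n := by omega
    simp only [F, e1]
    rcases (W.cnt a b (i - n)).eq_zero_or_pos with z | z
    · rw [z, zero_smul, W.X_congr (s := i - n) (t := i - n - 1), sub_self]
      intro K k
      have : W.pos a b K ≠ i - n := fun j => by
        have := card_pos.2 ⟨K, (mem_filter (p := fun H => W.pos a b H = i - n)).2 ⟨W.mem_Sp.2 k, j⟩⟩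
        unfold cnt at z
        omega
      omega
    · rw [tm, map_nsmul, smul_smul, Nat.mul_div_cancel' (Nat.dvd_factorial z (W.cnt_le _ _ _)), bdh_ch,
        smul_sub, Finsupp.smul_single, Finsupp.smul_single, nsmul_eq_mul, mul_comm (d.factorial : ℤ)]
      rfl
  rw [q, map_sum, ← sum_fiberwise_of_maps_to h1, sum_congr rfl h2, sum_range_sub]
  simp only [F]
  rw [W.X_hi, W.X_lo]
  · intro H _; have := W.pos_abs a b H; omega
  · intro H _; have := W.pos_abs a b H; omega

section transport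

variable {f : P → P} (hf : Function.Surjective f) {τ : ι ≃ ι} (hτ : ∀ H z, σ (τ H) (f z) = σ H z)
include hτ

omit W in
theorem in_map : In σ (f a) (f b) (τ H) ↔ In σ a b H := by simp [In, hτ]

include hf

omit W in
theorem lt_map : Lt σ (f a) (τ H) (τ K) ↔ Lt σ a H K := by
  rw [Lt, Lt, hf.forall]
  simp only [hτ, ne_eq, τ.injective.eq_iff]

omit W in
theorem cr_map : Cr σ (τ H) (τ K) ↔ Cr σ H K := 
  forall₂_congr fun _ _ => by rw [hf.exists]; simp only [hτ]

omit hf in
theorem Sp_map (a b : P) : W.Sp (f a) (f b) = (W.Sp a b).map τ.toEmbedding := by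
  ext H
  obtain ⟨K, rfl⟩ := τ.surjective H
  simp [in_map hτ]

theorem pos_map (a b : P) (K : ι) : W.pos (f a) (f b) (τ K) = W.pos a b K := by
  simp only [pos, W.Sp_map hτ, filter_map, card_map, Function.comp_def, Equiv.coe_toEmbedding,
    lt_map hf hτ]

theorem cnt_map (a b : P) (t : ℤ) : W.cnt (f a) (f b) t = W.cnt a b t := by
  simp only [cnt, W.Sp_map hτ, filter_map, card_map, Function.comp_def, Equiv.coe_toEmbedding,
    W.pos_map hf hτ]

omit W in
theorem ch4_map (T : ι → Prop) : Ch4 σ (f a) T ↔ Ch4 σ a fun K => T (τ K) := by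
  refine ⟨fun ⟨x1, x2, x3, x4, h⟩ => ?_, fun ⟨x1, x2, x3, x4, h⟩ => ⟨τ x1, τ x2, τ x3, τ x4, ?_⟩⟩
  · obtain ⟨y1, rfl⟩ := τ.surjective x1
    obtain ⟨y2, rfl⟩ := τ.surjective x2
    obtain ⟨y3, rfl⟩ := τ.surjective x3
    obtain ⟨y4, rfl⟩ := τ.surjective x4
    exact ⟨y1, y2, y3, y4, by simpa only [lt_map hf hτ] using h⟩
  · simpa only [lt_map hf hτ] using h

theorem X_map (a b : P) (t : ℤ) : W.X (f a) (f b) t = f (W.X a b t) :=
  W.inj _ _ fun H => by
    obtain ⟨K, rfl⟩ := τ.surjective H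
    rw [hτ, W.X_spec, W.X_spec]
    simp only [tau, t0, Mid, ch4_map hf hτ, hτ, W.pos_map hf hτ, in_map hτ, cr_map hf hτ]
    congr

end transport

section act

variable {G : Type*} [Group G] [MulAction G P] (act : ∀ (g : G) H, ∃ K, ∀ z, σ K (g • z) = σ H z)
include W act

theorem exists_tau (g : G) : ∃ τ : ι ≃ ι, ∀ H z, σ (τ H) (g • z) = σ H z := by
  choose T hT using act
  have key : ∀ (g : G) H, T g⁻¹ (T g H) = H := fun g H => W.ext _ _ (.inl fun z => by
    rw [← hT g H z, ← hT g⁻¹ (T g H) (g • z), inv_smul_smul])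
  exact ⟨⟨T g, T g⁻¹, key g, fun H => by simpa using key g⁻¹ H⟩, hT g⟩

theorem card_smul (g : G) (a b : P) : #(W.Sp (g • a) (g • b)) = #(W.Sp a b) := by
  obtain ⟨τ, hτ⟩ := W.exists_tau act g
  rw [W.Sp_map (f := fun z => g • z) hτ, card_map]

/-- the action on the edges -/
@[reducible] def eact : MulAction G W.E where
  smul g e := ⟨g • e.1, (W.card_smul act g _ _).trans_le e.2⟩
  one_smul e := Subtype.ext (one_smul G e.1)
  mul_smul g h e := Subtype.ext (mul_smul g h e.1)

theorem q_smul (g : G) (a b : P) (e : W.E) :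
    letI := W.eact act; W.q (g • a) (g • b) (g • e) = W.q a b e := by
  let _ := W.eact act
  obtain ⟨τ, hτ⟩ := W.exists_tau act g
  have hf : Function.Surjective fun z : P => g • z := MulAction.surjective g
  have h1 : ∀ t, W.stp (g • a) (g • b) t = g • W.stp a b t := fun t =>
    Subtype.ext (Prod.ext (W.X_map hf hτ a b _) (W.X_map hf hτ a b _))
  have h2 : ∀ e', W.ch (g • e') (g • e) = W.ch e' e := fun e' => by
    have : ∀ e' : W.E, (Finsupp.single (g • e') (1 : ℤ)) (g • e) = Finsupp.single e' (1 : ℤ) e :=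
      fun e' => Finsupp.single_apply_left (MulAction.injective g) _ _ _
    rw [ch, ch, Finsupp.sub_apply, Finsupp.sub_apply, this, ← this (W.rv e')]
    rfl
  rw [q, q, W.Sp_map (f := fun z => g • z) hτ, sum_map, Finsupp.finsetSum_apply,
    Finsupp.finsetSum_apply]
  refine sum_congr rfl fun K _ => ?_
  rw [Equiv.coe_toEmbedding, W.pos_map hf hτ, tm, tm, W.cnt_map hf hτ, h1, Finsupp.smul_apply,
    Finsupp.smul_apply, h2]

end act

end WS

end Crest.Agent.N233.Ou
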