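import Crest.Agent.N233.Ou.Bi2

/-!
# Row 233 (helper51): the bicombing is canonical along the legs of a triangle
-/

set_option autoImplicit false

noncomputable section

namespace Crest.Agent.N233.Ou

open Classical Finset

variable {ι P : Type*} {σ : ι → P → Bool} {d : ℕ} {a b c : P} {H K L J M H' K' : ι} {D D' : ι → Prop}

section defs
variable (σ) (a b c)

/-- the leg at `a` -/
def Lg (H : ι) : Prop := In σ a b H ∧ In σ a c H

/-- exceptional walls -/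
def Exc (H : ι) : Prop := ∃ J K, (In σ a b J ∨ In σ a c J) ∧ ¬Lg σ a b c J ∧ Lg σ a b c K ∧
  Cr σ H J ∧ Cr σ H K ∧ Lt σ a K J

/-- ordinary walls of the leg -/
def A0 (H : ι) : Prop := Lg σ a b c H ∧ (∃ K, Lg σ a b c K ∧ Lt σ a H K) ∧ ¬Exc σ a b c H

/-- walls of the leg at `b` that reach into the leg at `a` -/
def Lam (J : ι) : Prop := In σ a b J ∧ ¬In σ a c J ∧
  ∃ K, Lg σ a b c K ∧ (∃ L, Lg σ a b c L ∧ Lt σ a K L) ∧ Cr σ K J

/-- special walls -/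
def Z (z : ι) : Prop := (Lg σ a b c z ∧ ¬A0 σ a b c z) ∨ Lam σ a b c z

/-- a chain of length six -/
def Ch6 (T : ι → Prop) : Prop := ∃ f : ℕ → ι, (∀ i ≤ 5, T (f i)) ∧ ∀ i < 5, Lt σ a (f i) (f (i + 1))

end defs

theorem Lg.symm (h : Lg σ a b c H) : Lg σ a c b H := ⟨h.2, h.1⟩

theorem Exc.symm (h : Exc σ a b c H) : Exc σ a c b H := by
  obtain ⟨J, K, h1, h2, h3, h4⟩ := h
  exact ⟨J, K, h1.symm, fun k => h2 k.symm, h3.symm, h4⟩

theorem A0.symm (h : A0 σ a b c H) : A0 σ a c b H :=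
  ⟨h.1.symm, h.2.1.imp fun _ k => ⟨k.1.symm, k.2⟩, fun k => h.2.2 k.symm⟩

theorem Lg.down (h : Lg σ a b c K) (l : Lt σ a H K) (i : In σ a b H) : Lg σ a b c H := by
  refine ⟨i, fun e => h.2 (l.2 c e.symm).symm⟩

theorem Lg.cr (h : Lg σ a b c K) (i : In σ a b J) (n : ¬Lg σ a b c J) (l : ¬Lt σ a K J) : Cr σ K J :=
  (((tri h.1 i).resolve_left fun e => n (e ▸ h)).resolve_left l).resolve_left fun k => n (h.down k i)

theorem Ch6.ch4 {T : ι → Prop} (h : Ch6 σ a T) : Ch4 σ a T := by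
  obtain ⟨f, h1, h2⟩ := h
  exact ⟨f 0, f 1, f 2, f 3, h1 _ (by omega), h1 _ (by omega), h1 _ (by omega), h1 _ (by omega),
    h2 _ (by omega), h2 _ (by omega), h2 _ (by omega)⟩

theorem Ch6.mono {T T' : ι → Prop} (h : Ch6 σ a T) (k : ∀ x, T x → T' x) : Ch6 σ a T' :=
  h.imp fun _ h => ⟨fun i j => k _ (h.1 i j), h.2⟩

namespace WS

variable (W : WS σ d)

theorem mid4 {T : ι → Prop} (h : Ch6 σ a T) (c1 : Cr σ H K) (c2 : Cr σ H L)
    (lo : ∀ x y, T x → T y → Lt σ a x y → Le σ a K y) (hi : ∀ x y, T x → T y → Lt σ a x y → Le σ a x L)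
    (W : WS σ d) : Ch4 σ a fun M => T M ∧ Cr σ H M := by
  obtain ⟨f, h1, h2⟩ := h
  have l := lo _ _ (h1 0 (by omega)) (h1 1 (by omega)) (h2 0 (by omega))
  have u := hi _ _ (h1 4 (by omega)) (h1 5 (by omega)) (h2 4 (by omega))
  have l1 := h2 1 (by omega)
  have l2 := h2 2 (by omega)
  have l3 := h2 3 (by omega)
  exact ⟨f 1, f 2, f 3, f 4,
    ⟨h1 _ (by omega), c1.cvx c2 l (W.lt_le (W.trans l1 (W.trans l2 l3)) u).le⟩,
    ⟨h1 _ (by omega), c1.cvx c2 (W.le_lt l l1).le (W.lt_le (W.trans l2 l3) u).le⟩,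
    ⟨h1 _ (by omega), c1.cvx c2 (W.le_lt l (W.trans l1 l2)).le (W.lt_le l3 u).le⟩,
    ⟨h1 _ (by omega), c1.cvx c2 (W.le_lt l (W.trans l1 (W.trans l2 l3))).le u⟩, l1, l2, l3⟩

theorem pos_sub (h : A0 σ a b c H) (k : A0 σ a b c K) (e : Cr σ H K) :
    W.pos a b H - W.pos a b K = W.pos a c H - W.pos a c K := by
  have h1 : ∀ H, Lg σ a b c H → {L ∈ W.Sp a b | Lt σ a L H} = {L ∈ W.Sp a c | Lt σ a L H} :=
    fun H h => by
      ext L
      simp only [mem_filter, mem_Sp]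
      exact ⟨fun l => ⟨(h.down l.2 l.1).2, l.2⟩, fun l => ⟨(h.symm.down l.2 l.1).2, l.2⟩⟩
  have h2 : ∀ (b c : P) H, #{L ∈ W.Sp a b | Lt σ a H L} =
      #{L ∈ W.Sp a b ∩ W.Sp a c | Lt σ a H L} + #{L ∈ W.Sp a b \ W.Sp a c | Lt σ a H L} :=
    fun b c H => by
      rw [← card_union_of_disjoint (disjoint_filter_filter (disjoint_sdiff_inter _ _).symm),
        ← filter_union, union_comm, sdiff_union_inter]
  have h3 : ∀ (b c : P) H K, A0 σ a b c K → Lg σ a b c H → Cr σ H K →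
      {L ∈ W.Sp a b \ W.Sp a c | Lt σ a H L} ⊆ {L ∈ W.Sp a b \ W.Sp a c | Lt σ a K L} :=
    fun b c H K k h e L l => by
      simp only [mem_filter, mem_sdiff, mem_Sp] at l ⊢
      have n : ¬Lg σ a b c L := fun j => l.1.2 j.2
      exact ⟨l.1, by_contra fun m => k.2.2 ⟨L, H, .inl l.1.1, n, h, k.1.cr l.1.1 n m, e.symm, l.2⟩⟩
  have e1 := Subset.antisymm (h3 b c H K k h.1 e) (h3 b c K H h k.1 e.symm)
  have e2 := Subset.antisymm (h3 c b H K k.symm h.1.symm e) (h3 c b K H h.symm k.1.symm e.symm)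
  simp only [pos, h1 H h.1, h1 K k.1, h2 b c, e1]
  rw [h2 c b, h2 c b, e2, inter_comm (W.Sp a c)]
  omega

theorem pos_le_iff (h : A0 σ a b c H) (k : A0 σ a b c K) :
    W.pos a b H ≤ W.pos a b K ↔ W.pos a c H ≤ W.pos a c K := by
  rcases tri h.1.1 k.1.1 with e | e | e | e
  · simp [e]
  · exact iff_of_true (W.pos_lt h.1.1 e).le (W.pos_lt h.1.2 e).le
  · exact iff_of_false (W.pos_lt k.1.1 e).not_ge (W.pos_lt k.1.2 e).not_ge
  · have := W.pos_sub h k e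
    omega

variable (a b c) in
/-- `K` is far from all special walls -/
structure Far (K : ι) : Prop where
  ne : ∀ z, Z σ a b c z → W.pos a b z ≠ W.pos a b K
  lo : ∀ z, Z σ a b c z → W.pos a b z < W.pos a b K →
    Ch6 σ a fun M => A0 σ a b c M ∧ W.pos a b z < W.pos a b M ∧ W.pos a b M < W.pos a b K
  hi : ∀ z, Z σ a b c z → W.pos a b K < W.pos a b z →
    Ch6 σ a fun M => A0 σ a b c M ∧ W.pos a b K < W.pos a b M ∧ W.pos a b M < W.pos a b z
  lam : ∀ J, Lam σ a b c J → Lt σ a K J →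
    Ch6 σ a fun M => A0 σ a b c M ∧ W.pos a b K < W.pos a b M ∧ Lt σ a M J
  top : Ch6 σ a fun M => A0 σ a b c M ∧ W.pos a b K < W.pos a b M

variable (a b c) in
/-- corresponding cuts at a good wall -/
structure Cut (K : ι) (D D' : ι → Prop) : Prop where
  a0 : A0 σ a b c K
  f1 : W.Far a b c K
  f2 : W.Far a c b K
  d1 : Dn σ a b D
  d2 : Dn σ a c D'
  l1 : ∀ H, W.pos a b H < W.pos a b K → D H
  u1 : ∀ H, D H → W.pos a b H ≤ W.pos a b K
  l2 : ∀ H, W.pos a c H < W.pos a c K → D' H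
  u2 : ∀ H, D' H → W.pos a c H ≤ W.pos a c K
  eq : ∀ M, A0 σ a b c M → (D M ↔ D' M)

variable {W}

theorem Cut.symm (h : W.Cut a b c K D D') : W.Cut a c b K D' D :=
  ⟨h.a0.symm, h.f2, h.f1, h.d2, h.d1, h.l2, h.u2, h.l1, h.u1, fun M k => (h.eq M k.symm).symm⟩

theorem lam_of (k : A0 σ a b c K) (i : In σ a b J) (n : ¬Lg σ a b c J) (l : ¬Lt σ a K J) :
    Lam σ a b c J := ⟨i, fun j => n ⟨i, j⟩, K, k.1, k.2.1, k.1.cr i n l⟩

theorem z_of (k : A0 σ a b c K) (i : In σ a b J) (n : ¬A0 σ a b c J) (l : W.pos a b J ≤ W.pos a b K) :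
    Z σ a b c J := by
  by_cases e : Lg σ a b c J
  exacts [.inl ⟨e, n⟩, .inr (lam_of k i e fun j => (W.pos_lt k.1.1 j).not_ge l)]

theorem Far.up (h : W.Far a b c K) (i : In σ a b J) (n : ¬Lg σ a b c J) (l : Lt σ a K J) :
    Ch6 σ a fun M => A0 σ a b c M ∧ W.pos a b K < W.pos a b M ∧ Lt σ a M J := by
  by_cases e : Lam σ a b c J
  · exact h.lam J e l
  · exact h.top.mono fun M m => ⟨m.1, m.2, by_contra fun j => e (lam_of m.1 i n j)⟩

theorem Cut.mid (h : W.Cut a b c K D D') (m : Mid σ a b D H) : Mid σ a c D' H := by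
  obtain ⟨⟨x1, x2, x3, x4, p1, p2, p3, p4, r1, r2, r3⟩, y1, y2, y3, y4, q1, q2, q3, q4, s1, s2, s3⟩ := m
  have nd : ∀ M, W.pos a b K < W.pos a b M → ¬D M := fun M l k => l.not_ge (h.u1 M k)
  have ge : ∀ M, ¬D M → W.pos a b K ≤ W.pos a b M := fun M k => not_lt.1 fun l => k (h.l1 M l)
  constructor
  · by_cases e : A0 σ a b c x4
    · have d4 := (h.eq _ e).1 p4.2.1
      have g3 := e.1.down r3 p3.1
      have g2 := g3.down r2 p2.1
      have g1 := g2.down r1 p1.1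
      have d3 := h.d2 _ _ g3.2 r3 d4
      have d2 := h.d2 _ _ g2.2 r2 d3
      exact ⟨x1, x2, x3, x4, ⟨g1.2, h.d2 _ _ g1.2 r1 d2, p1.2.2⟩, ⟨g2.2, d2, p2.2.2⟩,
        ⟨g3.2, d3, p3.2.2⟩, ⟨e.1.2, d4, p4.2.2⟩, r1, r2, r3⟩
    · have z := z_of h.a0 p4.1 e (h.u1 _ p4.2.1)
      refine (mid4 (h.f1.lo _ z ((h.u1 _ p4.2.1).lt_of_ne (h.f1.ne _ z))) p3.2.2 q2.2.2
        (fun u v hu hv l => W.cmp r3 l p3.1 p4.1 hu.1.1.1 hv.1.1.1 fun j =>
          hu.2.1.not_ge (W.pos_le hu.1.1.1 j))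
        (fun u v hu hv l => W.cmpD h.d1 l s1 hu.1.1.1 hv.1.1.1 q1.1 q2.1 (h.l1 _ hv.2.2) q1.2.1)
        W).mono fun M k => ⟨k.1.1.1.2, (h.eq M k.1.1).1 (h.l1 M k.1.2.2), k.2⟩
  have lo : ∀ u v, A0 σ a b c u → A0 σ a b c v → W.pos a b K < W.pos a b u → Lt σ a u v →
      Le σ a x1 v := fun u v hu hv k l => W.cmpD h.d1 r1 l p1.1 p2.1 hu.1.1 hv.1.1 p2.2.1 (nd u k)
  by_cases e : Lg σ a b c y4
  · have g3 := e.down s3 q3.1
    have g2 := g3.down s2 q2.1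
    have g1 := g2.down s1 q1.1
    by_cases e' : A0 σ a b c y1
    · have d1 : ¬D' y1 := fun k => q1.2.1 ((h.eq _ e').2 k)
      have d2 : ¬D' y2 := fun k => d1 (h.d2 _ _ g1.2 s1 k)
      have d3 : ¬D' y3 := fun k => d2 (h.d2 _ _ g2.2 s2 k)
      exact ⟨y1, y2, y3, y4, ⟨g1.2, d1, q1.2.2⟩, ⟨g2.2, d2, q2.2.2⟩, ⟨g3.2, d3, q3.2.2⟩,
        ⟨e.2, fun k => d3 (h.d2 _ _ g3.2 s3 k), q4.2.2⟩, s1, s2, s3⟩
    · have z : Z σ a b c y1 := .inl ⟨g1, e'⟩
      refine (mid4 (h.f1.hi _ z ((ge _ q1.2.1).lt_of_ne (h.f1.ne _ z).symm)) p1.2.2 q2.2.2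
        (fun u v hu hv l => lo u v hu.1 hv.1 hu.2.1 l)
        (fun u v hu hv l => W.cmp l s1 hu.1.1.1 hv.1.1.1 q1.1 q2.1 fun j =>
          hv.2.2.not_ge (W.pos_le q1.1 j))
        W).mono fun M k => ⟨k.1.1.1.2, fun j => nd M k.1.2.1 ((h.eq M k.1.1).2 j), k.2⟩
  · have l : Lt σ a K y4 := by_contra fun n => by
      have cK := h.a0.1.cr q4.1 e n
      have n3 : ¬Lt σ a K y3 := fun j => n (W.trans j s3)
      by_cases g : Lg σ a b c y3
      · rcases tri h.a0.1.1 q3.1 with j | j | j | j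
        · exact n (j ▸ s3)
        · exact n3 j
        · exact (W.pos_lt q3.1 j).not_ge (ge _ q3.2.1)
        · exact h.a0.2.2 ⟨y4, y3, .inl q4.1, e, g, cK, j, s3⟩
      · obtain ⟨L, l1, l2⟩ := h.a0.2.1
        exact W.sq l2.1 l2.ncr s3 (h.a0.1.cr q3.1 g n3) cK (l1.cr q3.1 g fun j => n3 (W.trans l2 j))
          (l1.cr q4.1 e fun j => n (W.trans l2 j))
    exact (mid4 (h.f1.up q4.1 e l) p1.2.2 q4.2.2 (fun u v hu hv l => lo u v hu.1 hv.1 hu.2.1 l)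
      (fun u v hu _ _ => hu.2.2.le) W).mono
      fun M k => ⟨k.1.1.1.2, fun j => nd M k.1.2.1 ((h.eq M k.1.1).2 j), k.2⟩

theorem Cut.mid_lg (h : W.Cut a b c K D D') (g : Lg σ a b c H) (h1 : D H) (h2 : ¬D' H) :
    Mid σ a b D H := by
  have n : ¬A0 σ a b c H := fun e => h2 ((h.eq H e).1 h1)
  have z : Z σ a b c H := .inl ⟨g, n⟩
  have z' : Z σ a c b H := .inl ⟨g.symm, fun e => n e.symm⟩
  have g1 := h.u1 H h1
  have g2 : W.pos a c K ≤ W.pos a c H := not_lt.1 fun l => h2 (h.l2 H l)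
  refine ⟨(h.f1.lo H z (g1.lt_of_ne (h.f1.ne H z))).ch4.mono fun M m => ⟨m.1.1.1, h.l1 M m.2.2, ?_⟩,
    (h.f2.hi H z' (g2.lt_of_ne (h.f2.ne H z').symm)).ch4.mono fun M m =>
      ⟨m.1.1.2, fun k => m.2.1.not_ge (h.u2 M ((h.eq M m.1.symm).1 k)), ?_⟩⟩
  · rcases tri g.1 m.1.1.1 with j | j | j | j
    · exact absurd (j ▸ m.1) n
    · exact absurd (h.d2 _ _ g.2 j ((h.eq M m.1).1 (h.l1 M m.2.2))) h2
    · exact absurd (W.pos_lt m.1.1.1 j) m.2.1.not_gt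
    · exact j
  · rcases tri g.1 m.1.1.2 with j | j | j | j
    · exact absurd (j ▸ m.1.symm) n
    · exact absurd (W.pos_lt g.2 j) m.2.2.not_gt
    · exact absurd (h.u2 M ((h.eq M m.1.symm).1 (h.d1 _ _ m.1.1.2 j h1))) m.2.1.not_ge
    · exact j

theorem Cut.mid_lam (h : W.Cut a b c K D D') (i : In σ a b J) (n : ¬Lg σ a b c J) (h1 : D J) :
    Mid σ a b D J := by
  have g1 := h.u1 J h1
  have z := z_of h.a0 i (fun e => n e.1) g1
  refine ⟨(h.f1.lo J z (g1.lt_of_ne (h.f1.ne J z))).ch4.mono fun M m => ⟨m.1.1.1, h.l1 M m.2.2,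
    (m.1.1.cr i n fun j => (W.pos_lt m.1.1.1 j).not_gt m.2.1).symm⟩,
    h.f1.top.ch4.mono fun M m => ⟨m.1.1.1, fun k => m.2.not_ge (h.u1 M k),
      (m.1.1.cr i n fun j => (W.pos_lt m.1.1.1 j).not_gt (g1.trans_lt m.2)).symm⟩⟩

theorem Cut.tau_eq (h : W.Cut a b c K D D') (H : ι) : tau σ a b D H = tau σ a c D' H := by
  unfold tau
  by_cases m : Mid σ a b D H
  · rw [if_pos m, if_pos (h.mid m)]
  have m' : ¬Mid σ a c D' H := fun k => m (h.symm.mid k)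
  rw [if_neg m, if_neg m']
  by_cases g : Lg σ a b c H
  · unfold t0
    rw [bne g.1.symm g.2.symm]
    exact if_congr ⟨fun k => by_contra fun n => m (h.mid_lg g k n),
      fun k => by_contra fun n => m' (h.symm.mid_lg g.symm k n)⟩ rfl rfl
  · have key : ∀ (b c : P) D D', W.Cut a b c K D D' → ¬Mid σ a b D H → ¬Lg σ a b c H →
        t0 σ a b D H = σ H a := fun b c D D' h m g => by
      unfold t0
      split_ifs with e
      exacts [by_contra fun n => m (h.mid_lam (Ne.symm n) g e), rfl]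
    rw [key b c D D' h m g, key c b D' D h.symm m' fun k => g k.symm]

/-- **good walls contribute the same to both sides** -/
theorem tm_eq (k : A0 σ a b c K) (f1 : W.Far a b c K) (f2 : W.Far a c b K) :
    W.tm a b (W.pos a b K) = W.tm a c (W.pos a c K) := by
  have h1 : W.X a b (W.pos a b K) = W.X a c (W.pos a c K) := W.inj _ _ fun H => by
    rw [W.X_spec, W.X_spec]
    exact Cut.tau_eq ⟨k, f1, f2, W.dn _ _ _, W.dn _ _ _, fun _ l => l.le, fun _ l => l, fun _ l => l.le,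
      fun _ l => l, fun M m => W.pos_le_iff m k⟩ H
  have h2 : W.X a b (W.pos a b K - 1) = W.X a c (W.pos a c K - 1) := W.inj _ _ fun H => by
    rw [W.X_spec, W.X_spec]
    exact Cut.tau_eq ⟨k, f1, f2, W.dn _ _ _, W.dn _ _ _, fun _ l => by omega, fun _ l => by omega,
      fun _ l => by omega, fun _ l => by omega, fun M m => by have := W.pos_le_iff k m; omega⟩ H
  have key : ∀ b c : P, A0 σ a b c K → W.Far a b c K →
      {H ∈ W.Sp a b | W.pos a b H = W.pos a b K} ⊆ {H ∈ W.Sp a c | W.pos a c H = W.pos a c K} :=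
    fun b c k f H l => by
      simp only [mem_filter, mem_Sp] at l ⊢
      have m : A0 σ a b c H := by_contra fun n => f.ne H (z_of k l.1 n l.2.le) l.2
      exact ⟨m.1.2, ((W.pos_le_iff m k).1 l.2.le).antisymm ((W.pos_le_iff k m).1 l.2.ge)⟩
  have h3 : W.cnt a b (W.pos a b K) = W.cnt a c (W.pos a c K) :=
    congrArg card (Subset.antisymm (key b c k f1) (key c b k.symm f2))
  rw [tm, tm, h3, show W.stp a b (W.pos a b K) = W.stp a c (W.pos a c K) from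
    Subtype.ext (Prod.ext h2 h1)]

end WS

end Crest.Agent.N233.Ou
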