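import Mathlib

/-!
# Row 233 (helper51): oriented median wall spaces without squares
-/

set_option autoImplicit false

namespace Crest.Agent.N233.Ou

variable {ι P : Type*}

/-- two walls cross: all four quadrants are inhabited -/
def Cr (σ : ι → P → Bool) (H K : ι) : Prop := ∀ p q : Bool, ∃ z, σ H z = p ∧ σ K z = q

/-- a median wall space of dimension `≤ d` without squares; `σ H z = true` is the positive side -/
structure WS (σ : ι → P → Bool) (d : ℕ) : Prop where
  fin : ∀ x y, {H | σ H x ≠ σ H y}.Finite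
  inj : ∀ x y, (∀ H, σ H x = σ H y) → x = y
  ext : ∀ H K, ((∀ z, σ H z = σ K z) ∨ ∀ z, σ H z ≠ σ K z) → H = K
  med : ∀ x y z, ∃ m, ∀ H, (σ H x = σ H y → σ H m = σ H x) ∧ (σ H y = σ H z → σ H m = σ H y) ∧
    (σ H x = σ H z → σ H m = σ H x)
  dim : ∀ T : Finset ι, (T : Set ι).Pairwise (Cr σ) → T.card ≤ d
  nsq : ∀ H H' K K', H ≠ H' → K ≠ K' → Cr σ H K → Cr σ H K' → Cr σ H' K → Cr σ H' K' →
    Cr σ H H' ∨ Cr σ K K'

end Crest.Agent.N233.Ou
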